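import Crest.Agent.X262.Hb.Defs

/-!
# Row 262, road B, Hb (helper61), part 2: norms, echelon sets, the distance divisor
-/

set_option autoImplicit false
set_option linter.unusedSectionVars false

noncomputable section

namespace Crest.Agent.X262.Hb

open Crest.Agent.X277 Crest.Agent.X277.BD

variable {K : Type} [Field K] [Algebra ℂ K] {P : Type} [Fintype P] {a : P → BD ℂ K}
  {V : RZ ℂ K} {x y : P → K} {W U : Submodule K (P → K)} {γ : V.1.ValueGroup}

/-! ### the norm -/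

theorem nm_le : nm a V x ≤ γ ↔ ∀ i, V.v (x i) ≤ γ * (a i).val V := by
  simp only [nm, Finset.sup_le_iff, Finset.mem_univ, true_imp_iff, div_le_iff₀ (val_pos _ _)]

theorem le_nm (a : P → BD ℂ K) (V : RZ ℂ K) (x : P → K) (i : P) :
    V.v (x i) ≤ nm a V x * (a i).val V := nm_le.1 le_rfl i

theorem div_le_nm (a : P → BD ℂ K) (V : RZ ℂ K) (x : P → K) (i : P) :
    V.v (x i) / (a i).val V ≤ nm a V x := (div_le_iff₀ (val_pos _ _)).2 (le_nm a V x i)

@[simp] theorem nm_zero : nm a V 0 = 0 := le_zero_iff.1 (nm_le.2 fun i => by simp)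

theorem nm_eq_zero : nm a V x = 0 ↔ x = 0 :=
  ⟨fun h => funext fun i => by simpa [h] using le_nm a V x i, fun h => h ▸ nm_zero⟩

theorem nm_pos (hx : x ≠ 0) : 0 < nm a V x := zero_lt_iff.2 (nm_eq_zero.not.2 hx)

theorem nm_add_le (hx : nm a V x ≤ γ) (hy : nm a V y ≤ γ) : nm a V (x + y) ≤ γ :=
  nm_le.2 fun i => (V.v.map_add _ _).trans (max_le (nm_le.1 hx i) (nm_le.1 hy i))

theorem nm_smul_le (c : K) (x : P → K) : nm a V (c • x) ≤ V.v c * nm a V x :=
  nm_le.2 fun i => by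
    rw [Pi.smul_apply, smul_eq_mul, map_mul, mul_assoc]
    exact mul_le_mul_right (le_nm a V x i) _

theorem nm_smul (c : K) (x : P → K) : nm a V (c • x) = V.v c * nm a V x := by
  refine le_antisymm (nm_smul_le c x) ?_
  by_cases hc : c = 0
  · simp [hc]
  have h := nm_smul_le (a := a) (V := V) c⁻¹ (c • x)
  rwa [inv_smul_smul₀ hc, map_inv₀, le_inv_mul_iff₀ (RZ.pos hc)] at h

theorem nm_neg (x : P → K) : nm a V (-x) = nm a V x := by
  rw [← neg_one_smul K x, nm_smul]; simp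

theorem nm_sub_le (hx : nm a V x ≤ γ) (hy : nm a V y ≤ γ) : nm a V (x - y) ≤ γ := by
  rw [sub_eq_add_neg]
  exact nm_add_le hx ((nm_neg y).trans_le hy)

theorem nm_sum_le {ι : Type*} {s : Finset ι} {f : ι → P → K} (h : ∀ i ∈ s, nm a V (f i) ≤ γ) :
    nm a V (∑ i ∈ s, f i) ≤ γ :=
  Finset.sum_induction f (fun x => nm a V x ≤ γ) (fun _ _ => nm_add_le) (by simp) h

theorem exists_nm (a : P → BD ℂ K) (V : RZ ℂ K) (hx : x ≠ 0) :
    ∃ i, x i ≠ 0 ∧ V.v (x i) = nm a V x * (a i).val V := by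
  obtain ⟨j, hj⟩ := Function.ne_iff.1 hx
  obtain ⟨i, -, hi⟩ := Finset.exists_mem_eq_sup Finset.univ ⟨j, Finset.mem_univ j⟩
    fun i => V.v (x i) / (a i).val V
  have h : V.v (x i) = nm a V x * (a i).val V := by
    rw [nm, hi, div_mul_cancel₀ _ (val_ne _ _)]
  exact ⟨i, RZ.ne_zero_iff.1 (h ▸ mul_ne_zero (nm_pos hx).ne' (val_ne _ _)), h⟩

theorem exists_max {ι : Type*} (s : Finset ι) (hs : s.Nonempty) (f : ι → BD ℂ K) :
    ∃ b : BD ℂ K, ∀ V, (∀ i ∈ s, (f i).val V ≤ b.val V) ∧ ∃ i ∈ s, (f i).val V = b.val V := by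
  refine ⟨s.sup' hs f, fun V => ⟨fun i hi => (Finset.le_sup' f hi : f i ≤ _) V, ?_⟩⟩
  induction hs using Finset.Nonempty.cons_induction with
  | singleton i => exact ⟨i, by simp, by simp⟩
  | cons i s hi hs ih =>
    obtain ⟨j, hj, h⟩ := ih
    rw [Finset.sup'_cons hs, val_sup]
    rcases le_total ((f i).val V) ((s.sup' hs f).val V) with h1 | h1
    · exact ⟨j, by simp [hj], by rw [max_eq_right h1, h]⟩
    · exact ⟨i, by simp, by rw [max_eq_left h1]⟩

theorem exists_min {ι : Type*} (s : Finset ι) (hs : s.Nonempty) (f : ι → BD ℂ K) :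
    ∃ b : BD ℂ K, ∀ V, (∀ i ∈ s, b.val V ≤ (f i).val V) ∧ ∃ i ∈ s, (f i).val V = b.val V := by
  obtain ⟨b, hb⟩ := exists_max s hs fun i => -f i
  refine ⟨-b, fun V => ⟨fun i hi => ?_, ?_⟩⟩
  · have := (hb V).1 i hi
    rw [val_neg] at this ⊢
    exact inv_le_of_inv_le₀ (val_pos _ _) this
  · obtain ⟨i, hi, h⟩ := (hb V).2
    exact ⟨i, hi, by rw [val_neg, ← h, val_neg, inv_inv]⟩

theorem exists_nrm (a : P → BD ℂ K) (hx : x ≠ 0) : ∃ b : BD ℂ K, ∀ V, b.val V = nm a V x := by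
  classical
  obtain ⟨j, hj⟩ := Function.ne_iff.1 hx
  obtain ⟨b, hb⟩ := exists_max (Finset.univ.filter fun i => x i ≠ 0) ⟨j, by simpa using hj⟩
    fun i => pr ℂ (x i) - a i
  refine ⟨b, fun V => le_antisymm ?_ ?_⟩
  · obtain ⟨i, hi, h⟩ := (hb V).2
    rw [← h, val_sub, val_pr (by simpa using hi)]
    exact div_le_nm a V x i
  · obtain ⟨i, hi, h⟩ := exists_nm a V hx
    have := (hb V).1 i (by simpa using hi)
    rwa [val_sub, val_pr hi, h, mul_div_cancel_right₀ _ (val_ne _ _)] at this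

theorem val_le_of_le {V' : RZ ℂ K} (h : V'.1 ≤ V.1) {b c : BD ℂ K} (hb : b.val V' ≤ c.val V') :
    b.val V ≤ c.val V := by
  rw [← val_of_le h (b.v_gen V'), ← val_of_le h (c.v_gen V')]
  exact RZ.le_of_le h (by rwa [v_gen, v_gen])

theorem nm_le_of_le {V' : RZ ℂ K} (h : V'.1 ≤ V.1) {c : K} (hx : nm a V' x ≤ V'.v c) :
    nm a V x ≤ V.v c :=
  nm_le.2 fun i => by
    rw [← val_of_le h ((a i).v_gen V'), ← map_mul]
    exact RZ.le_of_le h (by rw [map_mul, v_gen]; exact nm_le.1 hx i)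

/-! ### echelon sets -/

/-- the coordinates in `I` identify `W` isometrically with `⊕_{i ∈ I} O(a i)` at `V` -/
structure Ech (a : P → BD ℂ K) (V : RZ ℂ K) (W : Submodule K (P → K)) (I : Finset P) : Prop where
  le : ∀ w ∈ W, ∀ γ, (∀ i ∈ I, V.v (w i) ≤ γ * (a i).val V) → nm a V w ≤ γ
  sur : ∀ x : P → K, ∃ w ∈ W, ∀ i ∈ I, w i = x i

namespace Ech

variable {I : Finset P}

theorem eq_zero (h : Ech a V W I) (hx : x ∈ W) (h0 : ∀ i ∈ I, x i = 0) : x = 0 :=
  nm_eq_zero.1 (le_zero_iff.1 (h.le x hx 0 fun i hi => by simp [h0 i hi]))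

theorem min (h : Ech a V W I) (h0 : ∀ i ∈ I, x i = 0) (hy : y ∈ W) :
    nm a V x ≤ nm a V (x - y) := by
  have h1 : nm a V y ≤ nm a V (x - y) := h.le y hy _ fun i hi => by
    simpa [h0 i hi] using le_nm a V (x - y) i
  simpa using nm_add_le le_rfl h1

theorem bot : Ech a V ⊥ ∅ := ⟨fun w hw γ _ => by simp [(Submodule.mem_bot K).1 hw],
  fun _ => ⟨0, zero_mem _, by simp⟩⟩

theorem step [DecidableEq P] (h : Ech a V W I) (hx : x ∉ W) :
    ∃ j, j ∉ I ∧ Ech a V (W ⊔ K ∙ x) (insert j I) := by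
  obtain ⟨w₀, hw₀, h0⟩ := h.sur x
  have h1 : x - w₀ ≠ 0 := fun e => hx (sub_eq_zero.1 e ▸ hw₀)
  have h2 : ∀ i ∈ I, (x - w₀) i = 0 := fun i hi => by simp [h0 i hi]
  obtain ⟨j, hj, hv⟩ := exists_nm a V h1
  have h3 : x - w₀ ∈ W ⊔ K ∙ x :=
    sub_mem (Submodule.mem_sup_right (Submodule.mem_span_singleton_self x))
      (Submodule.mem_sup_left hw₀)
  refine ⟨j, fun hI => hj (h2 j hI), fun w hw γ hγ => ?_, fun y => ?_⟩
  · obtain ⟨u, hu, z, hz, rfl⟩ := Submodule.mem_sup.1 hw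
    obtain ⟨c, rfl⟩ := Submodule.mem_span_singleton.1 hz
    have e : u + c • x = (u + c • w₀) + c • (x - w₀) := by rw [smul_sub]; abel
    rw [e] at hγ ⊢
    have h4 : nm a V (u + c • w₀) ≤ γ := h.le _ (add_mem hu (W.smul_mem c hw₀)) γ fun i hi => by
      have := hγ i (Finset.mem_insert_of_mem hi)
      rwa [Pi.add_apply, Pi.smul_apply c (x - w₀), h2 i hi, smul_zero, add_zero] at this
    refine nm_add_le h4 ?_
    have h5 := V.v.map_sub_le (hγ j (Finset.mem_insert_self _ _)) (nm_le.1 h4 j)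
    rw [Pi.add_apply, add_sub_cancel_left, Pi.smul_apply, smul_eq_mul, map_mul, hv, ← mul_assoc,
      mul_le_mul_iff_left₀ (val_pos _ _)] at h5
    rwa [nm_smul]
  · obtain ⟨w, hw, h4⟩ := h.sur y
    refine ⟨w + ((y j - w j) / (x - w₀) j) • (x - w₀),
      add_mem (Submodule.mem_sup_left hw) (Submodule.smul_mem _ _ h3), fun i hi => ?_⟩
    rcases Finset.mem_insert.1 hi with rfl | hi
    · rw [Pi.add_apply, Pi.smul_apply, smul_eq_mul, div_mul_cancel₀ _ hj, add_sub_cancel]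
    · rw [Pi.add_apply, Pi.smul_apply, h2 i hi, smul_zero, add_zero, h4 i hi]

end Ech

/-! ### flags -/

namespace Flag

variable {l m : List (P → K)}

theorem le (h : Flag W l U) : W ≤ U := by
  induction h with
  | nil => exact le_rfl
  | cons _ _ ih => exact le_sup_left.trans ih

theorem append {T : Submodule K (P → K)} (h : Flag W l U) (h' : Flag U m T) :
    Flag W (l ++ m) T := by
  induction h with
  | nil => exact h'
  | cons hx _ ih => exact .cons hx (ih h')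

theorem finrank_sup (hx : x ∉ W) :
    Module.finrank K (W ⊔ K ∙ x : Submodule K (P → K)) = Module.finrank K W + 1 := by
  have h0 : x ≠ 0 := fun e => hx (e ▸ zero_mem W)
  have h := Submodule.finrank_sup_add_finrank_inf_eq W (K ∙ x)
  rwa [((Submodule.disjoint_span_singleton' h0).2 hx).eq_bot, finrank_bot, add_zero,
    finrank_span_singleton h0] at h

theorem finrank (h : Flag W l U) : Module.finrank K U = Module.finrank K W + l.length := by
  induction h with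
  | nil => rfl
  | cons hx _ ih => rw [ih, finrank_sup hx, List.length_cons]; omega

theorem mem_cons (h : Flag W (x :: l) U) : x ∈ U := by
  cases h with
  | cons _ h => exact h.le (Submodule.mem_sup_right (Submodule.mem_span_singleton_self x))

end Flag

theorem sup_span_le (h : W ≤ U) (hx : x ∈ U) : W ⊔ K ∙ x ≤ U :=
  sup_le h ((Submodule.span_singleton_le_iff_mem _ _).2 hx)

theorem exists_flag (h : W ≤ U) : ∃ l, Flag W l U := by
  induction hn : Module.finrank K U - Module.finrank K W generalizing W with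
  | zero =>
    have : W = U := Submodule.eq_of_le_of_finrank_le h (by omega)
    exact ⟨[], this ▸ .nil _⟩
  | succ n ih =>
    obtain ⟨x, hx, hW⟩ := SetLike.exists_of_lt (lt_of_le_of_ne h (by rintro rfl; simp at hn))
    obtain ⟨l, hl⟩ := ih (sup_span_le h hx) (by rw [Flag.finrank_sup hW]; omega)
    exact ⟨x :: l, .cons hW hl⟩

theorem exists_ech (a : P → BD ℂ K) (V : RZ ℂ K) (W : Submodule K (P → K)) :
    ∃ I, Ech a V W I ∧ I.card = Module.finrank K W := by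
  classical
  obtain ⟨l, hl⟩ := exists_flag (bot_le (a := W))
  have key : ∀ {W₀ l W}, Flag W₀ l W → ∀ I, Ech a V W₀ I → I.card = Module.finrank K W₀ →
      ∃ I, Ech a V W I ∧ I.card = Module.finrank K W := by
    intro W₀ l W h
    induction h with
    | nil => exact fun I h1 h2 => ⟨I, h1, h2⟩
    | cons hx _ ih =>
      intro I h1 h2
      obtain ⟨j, hj, h3⟩ := h1.step hx
      exact ih _ h3 (by rw [Finset.card_insert_of_notMem hj, h2, Flag.finrank_sup hx])
  exact key hl ∅ Ech.bot (by simp)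

/-! ### the distance -/

theorem exists_ds (a : P → BD ℂ K) (V : RZ ℂ K) (W : Submodule K (P → K)) (x : P → K) :
    ∃ γ, (∀ w ∈ W, γ ≤ nm a V (x - w)) ∧ ∃ w ∈ W, nm a V (x - w) = γ := by
  obtain ⟨I, hI, -⟩ := exists_ech a V W
  obtain ⟨w₀, hw₀, h0⟩ := hI.sur x
  refine ⟨_, fun w hw => ?_, w₀, hw₀, rfl⟩
  simpa using hI.min (x := x - w₀) (fun i hi => by simp [h0 i hi]) (sub_mem hw hw₀)

/-- the distance from `x` to `W` at `V` -/
def ds (a : P → BD ℂ K) (V : RZ ℂ K) (W : Submodule K (P → K)) (x : P → K) : V.1.ValueGroup :=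
  (exists_ds a V W x).choose

theorem ds_le (hy : y ∈ W) : ds a V W x ≤ nm a V (x - y) := (exists_ds a V W x).choose_spec.1 y hy

theorem exists_eq_ds (a : P → BD ℂ K) (V : RZ ℂ K) (W : Submodule K (P → K)) (x : P → K) :
    ∃ w ∈ W, nm a V (x - w) = ds a V W x := (exists_ds a V W x).choose_spec.2

theorem le_ds : γ ≤ ds a V W x ↔ ∀ w ∈ W, γ ≤ nm a V (x - w) := by
  refine ⟨fun h w hw => h.trans (ds_le hw), fun h => ?_⟩
  obtain ⟨w, hw, e⟩ := exists_eq_ds a V W x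
  exact e ▸ h w hw

theorem ds_le_iff : ds a V W x ≤ γ ↔ ∃ w ∈ W, nm a V (x - w) ≤ γ := by
  refine ⟨fun h => ?_, fun ⟨w, hw, h⟩ => (ds_le hw).trans h⟩
  obtain ⟨w, hw, e⟩ := exists_eq_ds a V W x
  exact ⟨w, hw, e ▸ h⟩

theorem ds_le_nm : ds a V W x ≤ nm a V x := by simpa using ds_le (a := a) (x := x) W.zero_mem

theorem ds_bot : ds a V ⊥ x = nm a V x :=
  le_antisymm ds_le_nm (le_ds.2 fun w hw => by simp [(Submodule.mem_bot K).1 hw])

theorem ds_eq_zero : ds a V W x = 0 ↔ x ∈ W := by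
  rw [← le_zero_iff, ds_le_iff]
  exact ⟨fun ⟨w, hw, h⟩ => sub_eq_zero.1 (nm_eq_zero.1 (le_zero_iff.1 h)) ▸ hw,
    fun h => ⟨x, h, by simp⟩⟩

theorem ds_pos (hx : x ∉ W) : 0 < ds a V W x := zero_lt_iff.2 (ds_eq_zero.not.2 hx)

theorem ds_add_le (hx : ds a V W x ≤ γ) (hy : ds a V W y ≤ γ) : ds a V W (x + y) ≤ γ := by
  obtain ⟨w, hw, h⟩ := ds_le_iff.1 hx
  obtain ⟨u, hu, h'⟩ := ds_le_iff.1 hy
  exact ds_le_iff.2 ⟨w + u, add_mem hw hu, by rw [add_sub_add_comm]; exact nm_add_le h h'⟩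

theorem ds_smul_le (c : K) (x : P → K) : ds a V W (c • x) ≤ V.v c * ds a V W x := by
  obtain ⟨w, hw, h⟩ := exists_eq_ds a V W x
  exact ds_le_iff.2 ⟨c • w, W.smul_mem c hw, by rw [← smul_sub, nm_smul, h]⟩

theorem ds_smul (c : K) (x : P → K) : ds a V W (c • x) = V.v c * ds a V W x := by
  refine le_antisymm (ds_smul_le c x) ?_
  by_cases hc : c = 0
  · simp [hc]
  have h := ds_smul_le (a := a) (V := V) (W := W) c⁻¹ (c • x)
  rwa [inv_smul_smul₀ hc, map_inv₀, le_inv_mul_iff₀ (RZ.pos hc)] at h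

theorem ds_neg (x : P → K) : ds a V W (-x) = ds a V W x := by
  rw [← neg_one_smul K x, ds_smul]; simp

theorem ds_sub_le (hx : ds a V W x ≤ γ) (hy : ds a V W y ≤ γ) : ds a V W (x - y) ≤ γ := by
  rw [sub_eq_add_neg]
  exact ds_add_le hx ((ds_neg y).trans_le hy)

theorem ds_eq_of_lt (h : ds a V W (x - y) < ds a V W x) : ds a V W y = ds a V W x := by
  refine le_antisymm (by simpa using ds_sub_le le_rfl h.le) (le_of_not_gt fun h1 => ?_)
  have h2 := ds_add_le (le_max_left (ds a V W (x - y)) (ds a V W y)) (le_max_right _ _)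
  rw [sub_add_cancel] at h2
  exact h2.not_gt (max_lt h h1)

theorem ds_add_mem (hy : y ∈ W) : ds a V W (x + y) = ds a V W x := by
  have h0 : ∀ γ, ds a V W y ≤ γ := fun γ => (ds_eq_zero.2 hy).trans_le zero_le
  refine le_antisymm (ds_add_le le_rfl (h0 _)) ?_
  have h1 := ds_sub_le (le_refl (ds a V W (x + y))) (h0 _)
  rwa [add_sub_cancel_right] at h1

theorem ds_mono (h : W ≤ U) : ds a V U x ≤ ds a V W x := le_ds.2 fun _ hw => ds_le (h hw)

theorem ds_sup_le (c : K) : ds a V (W ⊔ K ∙ x) y ≤ ds a V W (y - c • x) :=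
  le_ds.2 fun w hw => by
    rw [sub_sub]
    exact ds_le (add_mem (Submodule.mem_sup_right (Submodule.mem_span_singleton.2 ⟨c, rfl⟩))
      (Submodule.mem_sup_left hw))

theorem exists_ds_sup (a : P → BD ℂ K) (V : RZ ℂ K) (W : Submodule K (P → K)) (x y : P → K) :
    ∃ c : K, ds a V W (y - c • x) = ds a V (W ⊔ K ∙ x) y := by
  obtain ⟨w, hw, h⟩ := exists_eq_ds a V (W ⊔ K ∙ x) y
  obtain ⟨u, hu, z, hz, rfl⟩ := Submodule.mem_sup.1 hw
  obtain ⟨c, rfl⟩ := Submodule.mem_span_singleton.1 hz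
  refine ⟨c, le_antisymm ?_ (ds_sup_le c)⟩
  rw [← h, add_comm, ← sub_sub]
  exact ds_le hu

/-- symmetry of the covolume of two vectors -/
theorem ds_mul_le : ds a V W x * ds a V (W ⊔ K ∙ x) y ≤ ds a V W y * ds a V (W ⊔ K ∙ y) x := by
  obtain ⟨c, hc⟩ := exists_ds_sup a V W y x
  rw [← hc]
  rcases lt_or_ge (ds a V W (c • y)) (ds a V W x) with h | h
  · rw [ds_eq_of_lt (x := x) (y := x - c • y) (by simpa using h), mul_comm]
    exact mul_le_mul_left (ds_mono le_sup_left) _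
  by_cases h0 : c = 0
  · rw [h0, zero_smul, ds_eq_zero.2 W.zero_mem] at h
    rw [le_zero_iff.1 h, zero_mul]
    exact zero_le
  have h1 : y - c⁻¹ • x = (-c⁻¹) • (x - c • y) := by
    rw [smul_sub, neg_smul, neg_smul, inv_smul_smul₀ h0]; abel
  refine (mul_le_mul' h (ds_sup_le c⁻¹)).trans_eq ?_
  rw [h1, ds_smul, ds_smul, Valuation.map_neg, map_inv₀, mul_mul_mul_comm,
    mul_inv_cancel₀ (RZ.pos h0).ne', one_mul]

theorem exists_isDst (a : P → BD ℂ K) (hx : x ∉ W) : ∃ b, IsDst a W x b := by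
  classical
  let S : Finset (Finset P) := Finset.univ.filter fun I => ∃ V, Ech a V W I
  have h1 : ∀ I ∈ S, ∃ w ∈ W, ∀ i ∈ I, w i = x i := fun I hI => by
    obtain ⟨V, hV⟩ := (Finset.mem_filter.1 hI).2
    exact hV.sur x
  choose! w hw h2 using h1
  have h3 : ∀ I ∈ S, ∃ b : BD ℂ K, ∀ V, b.val V = nm a V (x - w I) := fun I hI =>
    exists_nrm a fun e => hx (sub_eq_zero.1 e ▸ hw I hI)
  choose! f hf using h3
  have h4 : ∀ V, ∃ I ∈ S, Ech a V W I := fun V => by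
    obtain ⟨I, hI, -⟩ := exists_ech a V W
    exact ⟨I, Finset.mem_filter.2 ⟨Finset.mem_univ _, V, hI⟩, hI⟩
  obtain ⟨b, hb⟩ := exists_min S (by obtain ⟨I, hI, -⟩ := h4 (RZ.top ℂ K); exact ⟨I, hI⟩) f
  refine ⟨b, fun V => ⟨fun u hu => ?_, ?_⟩⟩
  · obtain ⟨I, hI, hE⟩ := h4 V
    refine ((hb V).1 I hI).trans ?_
    rw [hf I hI]
    simpa using hE.min (x := x - w I) (fun i hi => by simp [h2 I hI i hi]) (sub_mem hu (hw I hI))
  · obtain ⟨I, hI, h⟩ := (hb V).2
    exact ⟨w I, hw I hI, by rw [← h, hf I hI]⟩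

theorem val_dst (hx : x ∉ W) (V : RZ ℂ K) : (dst a W x).val V = ds a V W x := by
  have h := exists_isDst a hx
  rw [dst, dif_pos h]
  obtain ⟨h1, w, hw, h2⟩ := h.choose_spec V
  exact le_antisymm (le_ds.2 h1) (h2 ▸ ds_le hw)

theorem val_dst_bot (hx : x ≠ 0) (V : RZ ℂ K) : (dst a ⊥ x).val V = nm a V x := by
  rw [val_dst (by simpa using hx), ds_bot]

theorem dst_smul_add (hx : x ∉ W) {c : K} (hc : c ≠ 0) (hy : y ∈ W) :
    dst a W (c • x + y) = dst a W x + pr ℂ c := ext' fun V => by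
  have h : c • x + y ∉ W := fun h => hx ((W.smul_mem_iff hc).1 ((W.add_mem_iff_left hy).1 h))
  rw [val_add, val_dst h, val_dst hx, ds_add_mem hy, ds_smul, val_pr hc, mul_comm]

theorem not_mem_sup_symm (hx : x ∉ W) (h : y ∉ W ⊔ K ∙ x) : x ∉ W ⊔ K ∙ y := fun h1 => by
  obtain ⟨u, hu, z, hz, rfl⟩ := Submodule.mem_sup.1 h1
  obtain ⟨c, rfl⟩ := Submodule.mem_span_singleton.1 hz
  have hc : c ≠ 0 := fun e => hx (by simpa [e] using hu)
  refine h ((Submodule.smul_mem_iff _ hc).1 ?_)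
  simpa using sub_mem (Submodule.mem_sup_right (Submodule.mem_span_singleton_self (u + c • y)))
    (Submodule.mem_sup_left (T := K ∙ (u + c • y)) hu)

theorem dst_swap (hx : x ∉ W) (h : y ∉ W ⊔ K ∙ x) :
    dst a W x + dst a (W ⊔ K ∙ x) y = dst a W y + dst a (W ⊔ K ∙ y) x := ext' fun V => by
  rw [val_add, val_add, val_dst hx, val_dst h, val_dst (not_mem_sup_symm hx h),
    val_dst fun e => h (Submodule.mem_sup_left e)]
  exact le_antisymm ds_mul_le ds_mul_le

end Crest.Agent.X262.Hb
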