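import Crest.Agent.X262.Tr89.Pb
import Crest.Agent.X262.Tr89.Ex
import Crest.Agent.X262.Ends.Rees

/-!
# Row 262, road B, Hb (helper61), part 7: a smooth point has multiplicity one

* `mult`       : `(-E)^n = -1` for the exceptional divisor over a point with `n` local parameters;
* `exists_gen` : local parameters from the Jacobian criterion;
* `mult_jac`   : both together.
-/

set_option autoImplicit false
set_option linter.unusedSectionVars false

noncomputable section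

namespace Crest.Agent.X262.Hb

open Crest.Agent.X277 Crest.Agent.X277.BD Crest.Agent.X277.Pst Crest.Agent.X277.BD.Cyc
open Crest.Agent.X277.Neg (nv)
open Crest.Agent.X262.Geo Crest.Agent.X262.Tr89 MvPolynomial WithZero
open List (replicate)
open IntermediateField (adjoin)
open Set (range)

variable {k L E σ ι : Type} [Field k] [Field L] [Field E] [Algebra k L] [Algebra k E] [Fintype σ]
  [Fintype ι] {τ : σ → L} {s : ι → MvPolynomial σ k} {W : RZ k L} {x : MvPolynomial σ k}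
  {a b : BD k L}

theorem lin_rs_congr (p : Pl k L k E) (h : ∀ W : RZ k L, W.1 ≤ p.V.1 → a.val W = b.val W) :
    Lin (p.rs a) (p.rs b) := by
  have h1 : p.V.v (a.gen p.V) = b.val p.V := (v_gen a _).trans (h _ le_rfl)
  have h2 : p.rs a = p.res (b - pr k (a.gen p.V)) := ext' fun Z => by
    rw [Pl.val_res_gen (Pl.val_sub_gen h1)]
    refine Pl.val_res (Pl.val_sub_gen (v_gen a _)) ?_
    rw [v_gen, val_sub, val_sub, h _ (Pl.cm_le Z)]
  exact h2 ▸ (Pl.lin_rs h1).symm

theorem lin_rs_mxf (p : Pl k L k E) {y : ι → L} {i : ι} (h0 : y i ≠ 0)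
    (h : ∀ j, p.V.v (y j) ≤ p.V.v (y i)) :
    Lin (p.rs (mxf k y)) (mxf k fun j => p.r (y j / y i)) := by
  classical
  have h4 : mxf k y - pr k (y i) = mxf k fun j => y j / y i := by
    refine eq_mxf (fun j => (mem_Sec_sub_pr h0).2 (by
      rw [div_mul_cancel₀ _ h0]; exact mem_Sec_mxf y j)) fun W => ?_
    obtain ⟨j, hj⟩ := exists_val_mxf (k := k) ⟨i, h0⟩ W
    exact ⟨j, by rw [map_div₀, hj, val_sub, val_pr h0]⟩
  have h6 := Pl.lin_rs (p := p) (val_mxf h0 h).symm
  rwa [h4, mxf, mxf, Pl.res_mx (p := p) (fun z hz => by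
    obtain ⟨j, -, rfl⟩ := Finset.mem_image.1 hz
    exact (RZ.le_iff h0).1 (h j)) ⟨1, by simpa using ⟨i, div_self h0⟩, map_one _⟩,
    Finset.image_image] at h6

theorem lt_one_of_le {V : RZ k L} (h : W.1 ≤ V.1) {z : L} (hz : V.v z < 1) : W.v z < 1 :=
  lt_of_not_ge fun h1 => hz.not_ge (by
    simpa using RZ.le_of_le h (x := (1 : L)) (y := z) (by simpa using h1))

/-- the valuation is centred at the origin -/
def Cen (W : RZ k L) (τ : σ → L) : Prop := ∀ i, W.v (τ i) < 1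

namespace Cen

variable (h : Cen W τ)
include h

theorem mono {W' : RZ k L} (hW : W'.1 ≤ W.1) : Cen W' τ := fun i => lt_one_of_le hW (h i)

theorem mem (x : MvPolynomial σ k) : aeval τ x ∈ W.1 :=
  (r_aeval (lnr_plV W) (fun i => RZ.le_one_iff.1 (h i).le) x).1

theorem r_eq (x : MvPolynomial σ k) :
    (plV W).r (aeval τ x) = algebraMap k _ (aeval (0 : σ → k) x) := by
  rw [(r_aeval (lnr_plV W) (fun i => RZ.le_one_iff.1 (h i).le) x).2, ← aeval_algebraMap_apply]
  congr 2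
  funext i
  rw [(Pl.r_eq_zero (p := plV W) (RZ.le_one_iff.1 (h i).le)).2 (h i)]
  simp

theorem lt_iff (x : MvPolynomial σ k) : W.v (aeval τ x) < 1 ↔ x ∈ idl k (0 : σ → k) := by
  refine (Pl.r_eq_zero (p := plV W) (h.mem x)).symm.trans ?_
  rw [h.r_eq, map_eq_zero]
  rfl

theorem le_of_span {γ : W.1.ValueGroup} (hs : ∀ j, W.v (aeval τ (s j)) ≤ γ)
    (hx : x ∈ Ideal.span (range s)) : W.v (aeval τ x) ≤ γ := by
  induction hx using Submodule.span_induction with
  | mem y hy =>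
    obtain ⟨j, rfl⟩ := hy
    exact hs j
  | zero => simp
  | add y z _ _ hy hz =>
    rw [map_add]
    exact (W.v.map_add _ _).trans (max_le hy hz)
  | smul c y _ hy =>
    rw [smul_eq_mul, map_mul, map_mul]
    exact (mul_le_of_le_one_left' (RZ.le_one_iff.2 (h.mem c))).trans hy

theorem le_of_gen (hg : Gen (evH k τ) (idl k (0 : σ → k)) s) {γ : W.1.ValueGroup}
    (hs : ∀ j, W.v (aeval τ (s j)) ≤ γ) (hx : x ∈ idl k (0 : σ → k)) : W.v (aeval τ x) ≤ γ := by
  obtain ⟨g, h1, z, h2, h3⟩ := hg x hx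
  have h4 : W.v (aeval τ g) = 1 :=
    (RZ.le_one_iff.2 (h.mem g)).antisymm (not_lt.1 ((h.lt_iff g).not.2 h1))
  have h5 := h.le_of_span hs (pow_one (Ideal.span (range s)) ▸ h2)
  have h6 : aeval τ g * aeval τ x = aeval τ z := h3
  rwa [← h6, map_mul, h4, one_mul] at h5

end Cen

theorem gen_X (τ : σ → L) : Gen (evH k τ) (idl k (0 : σ → k)) X := fun x hx => by
  refine Ord.of_mem (RingHom.ker_isPrime _) ?_
  have h : ∀ y : MvPolynomial σ k, y - C (aeval (0 : σ → k) y) ∈ Ideal.span (range X) := fun y => by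
    induction y using MvPolynomial.induction_on with
    | C c => simp
    | add p q hp hq =>
      rw [map_add, map_add, add_sub_add_comm]
      exact add_mem hp hq
    | mul_X p i _ =>
      simpa using Ideal.mul_mem_left _ p (Ideal.subset_span (Set.mem_range_self i))
  have h1 := h x
  rwa [show aeval (0 : σ → k) x = 0 from hx, map_zero, sub_zero, ← pow_one (Ideal.span _)] at h1

theorem Cen.val_eq (h : Cen W τ) (hg : Gen (evH k τ) (idl k (0 : σ → k)) s)
    (hs : ∀ j, s j ∈ idl k (0 : σ → k)) (h0 : ∃ i, τ i ≠ 0) : (∃ j, aeval τ (s j) ≠ 0) ∧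
    (mxf k τ).val W = (mxf k fun j => aeval τ (s j)).val W := by
  obtain ⟨i, hi⟩ := exists_val_mxf (k := k) h0 W
  have hX : (X i : MvPolynomial σ k) ∈ idl k (0 : σ → k) := by simp [RingHom.mem_ker]
  have h1 : ∃ j, aeval τ (s j) ≠ 0 := by
    by_contra h2
    push Not at h2
    have h3 := h.le_of_gen hg (γ := 0) (fun j => by simp [h2 j]) hX
    rw [aeval_X, hi] at h3
    exact (val_pos _ _).not_ge h3
  obtain ⟨j, hj⟩ := exists_val_mxf (k := k) h1 W
  refine ⟨h1, le_antisymm ?_ ?_⟩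
  · simpa [hi] using h.le_of_gen hg (fun j => mem_Sec_mxf (fun j => aeval τ (s j)) j W) hX
  · rw [← hj]
    exact h.le_of_gen (gen_X τ) (fun i => by simpa using mem_Sec_mxf τ i W) (hs j)

theorem cen_of_val (h0 : ∃ i, τ i ≠ 0) : (mxf k τ ⊓ 0).val W ≠ 1 ↔ Cen W τ := by
  rw [val_inf, val_zero, Ne, min_eq_right_iff, not_le]
  obtain ⟨i, hi⟩ := exists_val_mxf (k := k) h0 W
  exact ⟨fun h j => (mem_Sec_mxf τ j W).trans_lt h, fun h => hi ▸ h i⟩

theorem Cen.val_inf (h : Cen W τ) (h0 : ∃ i, τ i ≠ 0) :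
    (mxf k τ ⊓ 0).val W = (mxf k τ).val W := by
  obtain ⟨i, hi⟩ := exists_val_mxf (k := k) h0 W
  rw [BD.val_inf, val_zero, min_eq_left (hi ▸ (h i).le)]

theorem Cen.r_eval₂ (h : Cen W τ) {u : ι → L} (hu : ∀ j, u j ∈ W.1)
    (G : MvPolynomial ι (MvPolynomial σ k)) : eval₂ (evH k τ) u G ∈ W.1 ∧
      (plV W).r (eval₂ (evH k τ) u G) =
        aeval (fun j => (plV W).r (u j)) (map (evH k (0 : σ → k)) G) := by
  induction G using MvPolynomial.induction_on with
  | C c =>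
    rw [eval₂_C, map_C, aeval_C]
    exact ⟨h.mem c, h.r_eq c⟩
  | add p q hp hq =>
    rw [eval₂_add, map_add, map_add, Pl.r_add (p := plV W) hp.1 hq.1, hp.2, hq.2]
    exact ⟨add_mem hp.1 hq.1, rfl⟩
  | mul_X p i hp =>
    rw [eval₂_mul, eval₂_X, map_mul, map_mul, map_X, aeval_X, Pl.r_mul (p := plV W) hp.1 (hu i),
      hp.2]
    exact ⟨mul_mem hp.1 (hu i), rfl⟩

theorem aeval_mem_of (S : Subalgebra k L) {u : ι → L} (h : ∀ j, u j ∈ S) (G : MvPolynomial ι k) :
    aeval u G ∈ S := by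
  induction G using MvPolynomial.induction_on with
  | C c => simp
  | add p q hp hq => exact map_add (aeval u) p q ▸ add_mem hp hq
  | mul_X p i hp =>
    rw [map_mul, aeval_X]
    exact mul_mem hp (h i)

variable [CharZero k] [Algebra.EssFiniteType k L] {m : ℕ}

theorem exists_ne (hK : adjoin k (range τ) = ⊤) (hd : dim k L ≠ 0) : ∃ i, τ i ≠ 0 := by
  by_contra h
  push Not at h
  refine hd (Nat.le_zero.1 (Lin62.dim_le_card (k := k) (s := (Empty.elim : Empty → L))
    (top_unique (hK ▸ IntermediateField.adjoin_le_iff.2 ?_))))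
  rintro _ ⟨i, rfl⟩
  rw [h i]
  exact zero_mem _

section Main

variable {s : Fin (m + 1) → MvPolynomial σ k} (hK : adjoin k (range τ) = ⊤) (hd : dim k L = m + 1)
  (hg : Gen (evH k τ) (idl k (0 : σ → k)) s) (hs : ∀ j, s j ∈ idl k (0 : σ → k))
  {V : RZ k L}

include hK hd hg hs

/-- a component of the exceptional divisor of nonzero degree is the order at the point -/
theorem exists_tr (hV : Dvs V) (h : Cen V τ) (h1 : Geo.dg V (replicate m (mxf k τ ⊓ 0)) ≠ 0) :
    ∃ t, TR (nv V) (evH k τ) (idl k (0 : σ → k)) s t ∧ V.v t = (mxf k τ ⊓ 0).val V ∧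
      Geo.dg V (replicate m (mxf k τ ⊓ 0)) = 1 := by
  have := essFT_Rf hV
  have h0 := exists_ne hK (by omega)
  obtain ⟨i, hi⟩ := exists_val_mxf (k := k) (h.val_eq hg hs h0).1 V
  have ht : aeval τ (s i) ≠ 0 := ne_of_val hi
  have h2 : ∀ j, V.v (aeval τ (s j)) ≤ V.v (aeval τ (s i)) := fun j =>
    hi ▸ mem_Sec_mxf (fun j => aeval τ (s j)) j V
  have h3 : ∀ j, aeval τ (s j) / aeval τ (s i) ∈ V.1 := fun j => (RZ.le_iff ht).1 (h2 j)
  set u : Fin (m + 1) → Rf V := fun j => (plV V).r (aeval τ (s j) / aeval τ (s i)) with hu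
  have h4 : Geo.dg V (replicate m (mxf k τ ⊓ 0)) = bnum (replicate m (mxf k u)) := by
    rw [Geo.dg_eq, List.map_replicate]
    refine bnum_rep ((lin_rs_congr (plV V) fun W hW => ?_).trans
      (lin_rs_mxf (plV V) (y := fun j => aeval τ (s j)) ht h2)) m
    rw [(h.mono hW).val_inf h0, ((h.mono hW).val_eq hg hs h0).2]
  have h5 : u i ≠ 0 := by simp [hu, div_self ht]
  have h6 : PInd k u := pind_of_dim h5 (le_dim_of_bnum h5 (h4 ▸ h1))
  have h7 : TR (nv V) (evH k τ) (idl k (0 : σ → k)) s (aeval τ (s i)) :=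
    ⟨fun x => (nv_le_one hV).2 (h.mem x), fun x => (nv_lt_one hV).trans (h.lt_iff x), ht,
      (nv_lt_one hV).2 ((h.lt_iff _).2 (hs i)), fun j => (nv_le_iff hV).2 (h2 j),
      fun e G hG h8 l => by
        have h9 := h.r_eval₂ h3 G
        have h10 := h6 e _ (hG.map _) (h9.2.symm.trans
          ((Pl.r_eq_zero (p := plV V) h9.1).2 ((nv_lt_one hV).1 h8)))
        simpa [coeff_map] using congrArg (coeff l) h10⟩
  refine ⟨_, h7, by rw [hi, h.val_inf h0, (h.val_eq hg hs h0).2], h4.trans ?_⟩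
  refine bnum_proj (h6.ne 0) (eq_top_iff.2 fun z _ => ?_) (by
    have := dim_Rf' hV
    omega)
  obtain ⟨z, rfl⟩ := surj_plV V z
  rw [← (plV V).r_coe]
  by_cases h8 : (plV V).r z = 0
  · rw [h8]
    exact zero_mem _
  obtain ⟨e, G, H, hG, hH, -, h9, h10⟩ := h7.exists_quot hg (frc_evH hK)
    ((nv_eq_one hV).2 (Pl.r_ne_zero_iff.1 h8))
  have key : ∀ G : MvPolynomial (Fin (m + 1)) k, G.IsHomogeneous e → aeval u G / u 0 ^ e ∈
      adjoin k (range fun j : Fin m => u j.succ / u 0) := fun G hG => by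
    rw [eq_smul_cons (h6.ne 0), Brg.Hyp0.aeval_smul hG, ← eq_smul_cons (h6.ne 0),
      mul_div_cancel_left₀ _ (pow_ne_zero _ (h6.ne 0))]
    have h11 : ∀ j, (Fin.cons 1 fun i => u i.succ / u 0 : Fin (m + 1) → Rf V) j ∈
        adjoin k (range fun j : Fin m => u j.succ / u 0) := fun j =>
      Fin.cases (one_mem _) (fun j => IntermediateField.subset_adjoin _ _ ⟨j, rfl⟩) j
    exact aeval_mem_of (adjoin k _).toSubalgebra h11 G
  rw [((congrArg (plV V).r h10).trans
    (Pl.r_div (p := plV V) (h.r_eval₂ h3 G).1 ((nv_eq_one hV).1 h9))).trans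
    (congrArg₂ (· / ·) (h.r_eval₂ h3 G).2 (h.r_eval₂ h3 H).2),
    ← div_div_div_cancel_right₀ (pow_ne_zero e (h6.ne 0))]
  exact div_mem (key _ (hG.map _)) (key _ (hH.map _))

omit hg hs in
theorem exists_dg (hc : ∃ W : RZ k L, Cen W τ) :
    ∃ V, Dvs V ∧ Cen V τ ∧ Geo.dg V (replicate m (mxf k τ ⊓ 0)) ≠ 0 := by
  have h0 := exists_ne hK (by omega)
  have h1 : Free (mxf k τ ⊔ 0) := (free_mxf τ).sup Free.zero
  have h2 : (mxf k τ ⊔ 0).sf = ⊤ := top_unique (hK ▸ IntermediateField.adjoin_le_iff.2 (by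
    rintro _ ⟨i, rfl⟩
    simpa using div_mem_sf (Sec_mono le_sup_left (mem_Sec_mxf τ i))
      (Sec_mono le_sup_right (one_mem_Sec (k := k) (F := L)))))
  have h3 := (isMod_iff_va.2 (va_of_alg h1 (by rw [h2]; infer_instance))).add (free_mxf τ)
  have h4 : Mod.Car (mxf k τ ⊔ 0 + mxf k τ) (mxf k τ ⊓ 0) := by
    have h5 := (Mod.car_add_right h1 (free_mxf τ)).sub (Mod.car_add_left h1 (free_mxf τ))
    rwa [show mxf k τ - (mxf k τ ⊔ 0) = mxf k τ ⊓ 0 by
      rw [sub_eq_iff_eq_add, inf_add_sup, add_zero]] at h5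
  obtain ⟨W, hW⟩ := hc
  have h5 : ∃ V, Prm (mxf k τ ⊔ 0 + mxf k τ) V ∧ od V (mxf k τ ⊓ 0) ≠ od V 0 := by
    by_contra h6
    push Not at h6
    exact (cen_of_val h0).2 hW (by rw [eq_of_od h3 h4 Mod.Car.zero h6, val_zero])
  obtain ⟨V, h6, h7⟩ := h5
  have h8 : Cen V τ := (cen_of_val h0).1 ((od_eq_iff h6.dvs).not.1 h7)
  refine ⟨V, h6.dvs, h8, ?_⟩
  have := essFT_Rf h6.dvs
  have h9 := dg_pos h3 h6 hd
  rw [Geo.dg_eq, List.map_replicate] at h9 ⊢
  rw [bnum_rep (lin_rs_congr (plV V) (b := mxf k τ ⊔ 0 + mxf k τ) fun W hW => ?_)]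
  · exact h9.ne'
  · obtain ⟨i, hi⟩ := exists_val_mxf (k := k) h0 W
    rw [(h8.mono hW).val_inf h0, val_add, val_sup, val_zero,
      max_eq_right (hi ▸ (h8.mono hW i).le), one_mul]

/-- **multiplicity one** -/
theorem mult (hc : ∃ W : RZ k L, Cen W τ) : bnum (replicate (m + 1) (mxf k τ ⊓ 0)) = -1 := by
  have h0 := exists_ne hK (by omega)
  obtain ⟨V, hV, h1, h2⟩ := exists_dg hK hd hc
  obtain ⟨t, h3, h4, h5⟩ := exists_tr hK hd hg hs hV h1 h2
  rw [List.replicate_succ, bnum_single hV fun W hW h6 h7 => ?_, h5, od_of_gen hV h4,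
    h3.unif hg (frc_evH hK) (nv_unif hV), log_exp, mul_one]
  obtain ⟨t', h8, -⟩ := exists_tr hK hd hg hs hW
    ((cen_of_val h0).1 ((od_eq_zero hW).not.1 h6)) h7
  exact Subtype.ext (ValuationSubring.ext _ _ fun z => (nv_le_one hW).symm.trans
    ((h8.le_one_iff h3 hg (frc_evH hK) z).trans (nv_le_one hV)))

end Main

omit [CharZero k] [Algebra.EssFiniteType k L] in
theorem exists_cen (h : ∀ x : MvPolynomial σ k, aeval τ x = 0 → aeval (0 : σ → k) x = 0) :
    ∃ W : RZ k L, Cen W τ := by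
  have := RingHom.ker_isPrime (evH k (0 : σ → k))
  obtain ⟨V, h1, h2⟩ := Ends.exists_centre (evH k τ) (idl k (0 : σ → k)) h
  exact ⟨⟨V, fun c => by simpa using h1 (C c)⟩, fun i => by
    simpa using (h2 (X i)).2 (by simp [RingHom.mem_ker])⟩

theorem exists_compl {k M : Type} [Field k] [AddCommGroup M] [Module k M] [Module.Finite k M]
    (U : Submodule k M) {n : ℕ} (h : Module.finrank k M ≤ Module.finrank k U + n) :
    ∃ w : Fin n → M, Submodule.span k (range w) ⊔ U = ⊤ := by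
  obtain ⟨U', hU⟩ := U.exists_isCompl
  have h1 := Submodule.finrank_add_eq_of_isCompl hU
  let b := Module.finBasis k U'
  refine ⟨fun a => if h : a.1 < Module.finrank k U' then b ⟨a, h⟩ else 0, top_unique ?_⟩
  rw [← hU.symm.sup_eq_top]
  refine sup_le_sup_right (fun x hx => ?_) _
  have h2 := congrArg Subtype.val (b.sum_repr ⟨x, hx⟩)
  simp only [AddSubmonoidClass.coe_finsetSum, SetLike.val_smul] at h2
  rw [← h2]
  exact sum_mem fun i _ => Submodule.smul_mem _ _ (Submodule.subset_span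
    ⟨⟨i, by omega⟩, by simp⟩)

omit [Algebra.EssFiniteType k L] in
/-- local parameters from the Jacobian criterion -/
theorem exists_gen {q : ι → MvPolynomial σ k} (h1 : ∀ a, aeval τ (q a) = 0)
    (h2 : ∀ a, aeval (0 : σ → k) (q a) = 0) {n : ℕ} (h3 : Fintype.card σ ≤
      Module.finrank k (Submodule.span k (range fun a => grd (0 : σ → k) (q a))) + n) :
    ∃ s : Fin n → MvPolynomial σ k, (∀ j, s j ∈ idl k (0 : σ → k)) ∧
      Gen (evH k τ) (idl k (0 : σ → k)) s := by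
  classical
  obtain ⟨w, hw⟩ := exists_compl _ ((Module.finrank_fintype_fun_eq_card k).trans_le h3)
  let s : Fin n → MvPolynomial σ k := fun j => ∑ i, C (w j i) * X i
  have h4 : ∀ j, aeval (0 : σ → k) (s j) = 0 := fun j => by simp [s]
  have h5 : ∀ j, grd (0 : σ → k) (s j) = w j := fun j => funext fun i => by
    simp [s, grd, Pi.single_apply]
  refine ⟨s, h4, fun x hx => ?_⟩
  obtain ⟨g, h6, h7⟩ := gen_of_span (η := (0 : σ → k)) (s := Sum.elim s q)
    (eq_top_iff.2 fun z _ => IntermediateField.algebraMap_mem _ z)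
    (fun a => by rcases a with a | a; exacts [h4 a, h2 a]) (fun y _ => by
      refine (hw.ge.trans ?_) Submodule.mem_top
      refine sup_le (Submodule.span_mono ?_) (Submodule.span_mono ?_)
      · rintro _ ⟨j, rfl⟩
        exact ⟨Sum.inl j, h5 j⟩
      · rintro _ ⟨j, rfl⟩
        exact ⟨Sum.inr j, rfl⟩) hx
  rw [Set.Sum.elim_range, Ideal.span_union] at h7
  obtain ⟨z, hz, z', hz', h8⟩ := Submodule.mem_sup.1 h7
  have h9 : z' ∈ idl k τ := Ideal.span_le.2 (by rintro _ ⟨a, rfl⟩; exact h1 a) hz'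
  exact ⟨g, h6, z, by rwa [pow_one], by
    rw [← map_mul, ← h8, map_add, RingHom.mem_ker.1 h9, add_zero]⟩

theorem mult_jac (hK : adjoin k (range τ) = ⊤) (hd : dim k L = m + 1)
    (hc : ∀ x : MvPolynomial σ k, aeval τ x = 0 → aeval (0 : σ → k) x = 0)
    {q : ι → MvPolynomial σ k} (h1 : ∀ a, aeval τ (q a) = 0) (h3 : Fintype.card σ ≤
      Module.finrank k (Submodule.span k (range fun a => grd (0 : σ → k) (q a))) + (m + 1)) :
    bnum (replicate (m + 1) (mxf k τ ⊓ 0)) = -1 := by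
  obtain ⟨s, hs, hg⟩ := exists_gen h1 (fun a => hc _ (h1 a)) h3
  exact mult hK hd hg hs (exists_cen hc)

end Crest.Agent.X262.Hb
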