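import Crest.Agent.X262.Hb.Dgc
import Crest.Agent.X262.Hb.Mult
import Crest.Agent.X262.Wd54.Gx
import Crest.Agent.X262.Syz.Eqn2

/-!
# Row 262, road B, Hb (helper61), part 8: the diagonal class at a generic point

`pt_dgc` : `∫_{F K} dgc (y₁, y₀) Ψ = ∫_F ψ` if `y₀` is the generic point of the target and `Ψ`
restricts to `ψ` wherever the two points meet.
-/

set_option autoImplicit false
set_option linter.unusedSectionVars false

noncomputable section

namespace Crest.Agent.X262.Hb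

open Crest.Agent.X277 Crest.Agent.X277.BD Crest.Agent.X277.Pst Crest.Agent.X277.BD.Cyc
open Crest.Agent.X262.Vb Module
open Crest.Agent.X262.Node22 (scl vec vsc wg dl da Par Dg gD wg_apply vsc_apply)
open Crest.Agent.X262.Tr89 (grd pc)
open Crest.Agent.R274.Prod1_134 (IsPF)
open Algebra.TensorProduct (productMap)
open scoped TensorProduct
open List (replicate)

variable {J : Type} [Fintype J] [DecidableEq J] {io : J → Type} [∀ j, Fintype (io j)]
  [∀ j, DecidableEq (io j)] {A : Type} [Fintype A] {F K L : Type} [Field F] [Algebra ℂ F] [Field K]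
  [Algebra ℂ K] [Field L] [Algebra ℂ L] {T : Tgt io A} {B : Th} {c : ℕ} {y₀ : Pnt io K}
  {y₁ : Pnt io F} {i₀ : ∀ j, io j} {γ : K →ₐ[ℂ] L}

theorem genPt_scl (h : GenPt T c y₀) {a : J → K} (ha : ∀ j, a j ≠ 0) : GenPt T c (scl a y₀) where
  nz := Node22.nz_scl h.nz ha
  on := Node22.on_scl T h.on a
  gen := by simpa only [scl, mul_div_mul_left _ _ (ha _)] using h.gen
  dm := h.dm
  irr q κ h1 h2 := h.irr q κ h1 (by
    rw [Node22.pv_scl h1] at h2
    exact (mul_eq_zero.1 h2).resolve_left (Node22.chr_ne ha κ))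

theorem genPt_ne (h : GenPt T c y₀) (h1 : NZ y₁) (hO : T.On y₁) {j : J} {i : io j}
    (hi : y₁ j i ≠ 0) : y₀ j i ≠ 0 := fun h0 => hi (by
  simpa [pv] using h.irr (MvPolynomial.X ⟨j, i⟩) _ (MvPolynomial.isWeightedHomogeneous_X ℂ _ _)
    (by simpa [pv] using h0) F y₁ h1 hO)

theorem genPt_ker (h : GenPt T c y₀) (n₀ : ∀ j, y₀ j (i₀ j) = 1) (n₁ : ∀ j, y₁ j (i₀ j) = 1)
    (hO : T.On y₁) (g : MvPolynomial (Vr io) ℂ) (hg : pv y₀ g = 0) : pv y₁ g = 0 := by
  obtain ⟨E, G, hG, h1⟩ := Syz.exists_homog (blk := Sigma.fst) (c := fun j => ⟨j, i₀ j⟩)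
    (fun _ => rfl) g
  have h2 := h1 K (vec y₀) 1 fun j => by simp [vec, n₀]
  have h3 := h1 F (vec y₁) 1 fun j => by simp [vec, n₁]
  simp only [Pi.one_apply, one_mul, one_pow, Finset.prod_const_one] at h2 h3
  exact h3.trans (h.irr G E hG (h2.symm.trans hg) F y₁
    (fun j => ⟨i₀ j, n₁ j ▸ one_ne_zero⟩) hO)

theorem tensor_ker {R : Type} [CommRing R] [Algebra ℂ R] {β : F →ₐ[ℂ] L} (h : IsPF β γ)
    (φ : R →ₐ[ℂ] K) (ψ : R →ₐ[ℂ] F) (hk : ∀ r, φ r = 0 → ψ r = 0) (z : F ⊗[ℂ] R)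
    (hz : productMap β (γ.comp φ) z = 0) : productMap (AlgHom.id ℂ F) ψ z = 0 := by
  have h1 : ∀ z : F ⊗[ℂ] R, productMap β γ (φ.toLinearMap.lTensor F z) =
      productMap β (γ.comp φ) z := fun z => by
    induction z with
    | zero => simp
    | tmul x y => simp
    | add x y hx hy => simp only [map_add, hx, hy]
  have h2 : φ.toLinearMap.lTensor F z = 0 := h.inj (by rw [h1, hz, map_zero])
  obtain ⟨w, rfl⟩ := (Module.Flat.lTensor_exact F
    (LinearMap.exact_subtype_ker_map φ.toLinearMap) z).1 h2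
  clear hz h2
  induction w with
  | zero => simp
  | tmul x y => simp [hk y y.2]
  | add x y hx hy => simp only [map_add, hx, hy, add_zero]

section Shift

open MvPolynomial

variable {σ : Type} [Fintype σ] [DecidableEq σ]

/-- translation of the origin -/
def shf (y : σ → F) : MvPolynomial σ ℂ →ₐ[ℂ] MvPolynomial σ F := aeval fun v => X v + C (y v)

theorem aeval_shf {M : Type} [CommRing M] [Algebra ℂ M] [Algebra F M] [IsScalarTower ℂ F M]
    (y : σ → F) (t : σ → M) (g : MvPolynomial σ ℂ) :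
    aeval t (shf y g) = aeval (fun v => t v + algebraMap F M (y v)) g := by
  refine (comp_aeval_apply (fun v => X v + C (y v))
    ((aeval t : MvPolynomial σ F →ₐ[F] M).restrictScalars ℂ) g).trans ?_
  congr 2
  funext v
  change aeval t (X v + C (y v)) = _
  simp

theorem pderiv_shf (y : σ → F) (v : σ) (g : MvPolynomial σ ℂ) :
    pderiv v (shf y g) = shf y (pderiv v g) := by
  induction g using MvPolynomial.induction_on with
  | C a => simp [shf]
  | add p q hp hq => simp only [map_add, hp, hq]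
  | mul_X p i hp =>
    rw [map_mul, Derivation.leibniz, Derivation.leibniz, hp]
    by_cases h : i = v <;> simp [shf, h]

theorem grd_shf (y : σ → F) (g : MvPolynomial σ ℂ) (v : σ) :
    grd (0 : σ → F) (shf y g) v = aeval y (pderiv v g) := by
  simp [grd, pderiv_shf, aeval_shf]

end Shift

/-- the equations in the chart, centred at the point -/
def eqs (T : Tgt io A) (i₀ : ∀ j, io j) (y₁ : Pnt io F) : A ⊕ J → MvPolynomial (Vr io) F :=
  Sum.elim (fun a => shf (vec y₁) (T.F a)) fun j => MvPolynomial.X ⟨j, i₀ j⟩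

theorem rank_eqs (hS : Smo T c) (n₁ : ∀ j, y₁ j (i₀ j) = 1) (hO : T.On y₁) {n : ℕ}
    (hn : n + c = adim io) : Fintype.card (Vr io) ≤ finrank F (Submodule.span F
      (Set.range fun a => grd (0 : Vr io → F) (eqs T i₀ y₁ a))) + n := by
  have h0 : NZ y₁ := fun j => ⟨i₀ j, n₁ j ▸ one_ne_zero⟩
  let M : Matrix (A ⊕ J) (Vr io) F := Matrix.of fun a => grd (0 : Vr io → F) (eqs T i₀ y₁ a)
  have h1 := M.rank_eq_finrank_span_row
  have h2 := LinearMap.finrank_range_add_finrank_ker M.mulVecLin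
  have h3 : LinearMap.ker M.mulVecLin ≤ LinearMap.ker (T.jac y₁) := fun w hw =>
    funext fun a => by
      have := congrFun (LinearMap.mem_ker.1 hw) (Sum.inl a)
      rw [Node22.jac_apply]
      simpa [M, Matrix.mulVec, dotProduct, eqs, grd_shf] using this
  have h4 : LinearMap.ker M.mulVecLin ⊓ eul y₁ = ⊥ := eq_bot_iff.2 fun w hw => by
    obtain ⟨l, rfl⟩ := mem_eul.1 hw.2
    have h5 : ∀ j, l j = 0 := fun j => by
      have := congrFun (LinearMap.mem_ker.1 hw.1) (Sum.inr j)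
      simpa [M, Matrix.mulVec, dotProduct, eqs, grd, Pi.single_apply, vec, n₁] using this
    exact funext fun v => by simp [h5]
  have h5 := Submodule.finrank_sup_add_finrank_inf_eq (LinearMap.ker M.mulVecLin) (eul y₁)
  have h6 := Submodule.finrank_mono (sup_le h3 (eul_le hO))
  have h7 := finrank_ker_jac hS h0 hO
  have h8 : adim io + _ = _ := Node22.dimP_add h0
  rw [h4, finrank_bot, finrank_eul h0] at h5
  rw [finrank_fintype_fun_eq_card] at h2
  change _ ≤ finrank F (Submodule.span F (Set.range M.row)) + n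
  rw [← h1, Matrix.rank]
  omega

theorem nm_dl {y z : Pnt io L} (ny : ∀ j, y j (i₀ j) = 1) (nz : ∀ j, z j (i₀ j) = 1) {V : RZ ℂ L}
    (hz : ∀ j i, z j i ∈ V.1) {v : Vr io}
    (hv : ∀ w, V.v ((vec y - vec z) w) ≤ V.v ((vec y - vec z) v)) :
    nm (da z y) V (dl z y) = min (V.v ((vec y - vec z) v)) 1 := by
  have hP : Prim V z := fun j => ⟨hz j, i₀ j, by rw [nz, map_one]⟩
  have h1 : ∀ j, 1 ≤ (ln y j).val V := fun j => by simpa [ny] using le_ln y j (i₀ j) V
  have h2 : dl z y = wg (vec z) (vec y - vec z) := by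
    rw [map_sub, (mem_eul_iff (τ := vec z) hP.nz).1 (mem_eul.2 ⟨1, by ext; simp⟩), sub_zero, dl]
  refine le_antisymm (le_min (nm_le.2 fun x => ?_) (nm_dl_le _ _ _)) ?_
  · rw [da, val_add, hP.val_ln, one_mul, h2, wg_apply]
    refine le_trans ?_ (le_mul_of_one_le_right' (h1 _))
    refine (V.v.map_sub _ _).trans (max_le ?_ ?_) <;> rw [map_mul] <;>
      exact (mul_le_of_le_one_left' (RZ.le_one_iff.2 (hz _ _))).trans (hv _)
  · have h3 := le_nm (da z y) V (dl z y) ⟨v.1, i₀ v.1, v.2⟩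
    have h4 : dl z y ⟨v.1, i₀ v.1, v.2⟩ = (vec y - vec z) v := by
      simp [dl, wg_apply, vec, ny, nz]
    obtain ⟨i, hi⟩ := exists_ln (fun j => ⟨i₀ j, ny j ▸ one_ne_zero⟩ : NZ y) v.1 V
    have h5 : (ln y v.1).val V ≤ max (V.v ((vec y - vec z) v)) 1 := by
      rw [← hi, show y v.1 i = (vec y - vec z) ⟨v.1, i⟩ + z v.1 i by simp [vec]]
      exact (V.v.map_add _ _).trans (max_le_max (hv _) (RZ.le_one_iff.2 (hz _ _)))
    rw [h4, da, val_add, hP.val_ln, one_mul] at h3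
    replace h3 := h3.trans (mul_le_mul_right h5 _)
    rcases le_total (V.v ((vec y - vec z) v)) 1 with h6 | h6
    · rwa [max_eq_right h6, mul_one, ← min_eq_left h6] at h3
    · rw [max_eq_left h6, le_mul_iff_one_le_left (zero_lt_one.trans_le h6)] at h3
      exact (min_le_right _ _).trans h3

theorem meet_of_par {y z : Pnt io L} (hy : NZ y) (hz : NZ z) (h : Par y z) :
    Meet (LP.hom (AlgHom.id ℂ L)).V y z := by
  obtain ⟨a, ha, e⟩ := h
  refine ⟨1, a, prim_hom _ (Node22.nz_scl hy fun _ => one_ne_zero),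
    prim_hom _ (Node22.nz_scl hz ha), fun j i => ?_⟩
  rw [e]
  simp [scl]

section Tower

variable [Algebra F L] [IsScalarTower ℂ F L]

local notation "β" => IsScalarTower.toAlgHom ℂ F L

theorem up_dh {y : Pnt io L} (ny : ∀ j, y j (i₀ j) = 1) (n₁ : ∀ j, y₁ j (i₀ j) = 1)
    (h0 : ∃ v, (vec y - vec (mpt β y₁)) v ≠ 0) : dl (mpt β y₁) y ≠ 0 ∧
    up F (-dh (mpt β y₁) y) = mxf F (vec y - vec (mpt β y₁)) ⊓ 0 := by
  have nz : ∀ j, mpt β y₁ j (i₀ j) = 1 := fun j => by simp [mpt, n₁]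
  have h1 : dl (mpt β y₁) y ≠ 0 := fun e => by
    obtain ⟨v, hv⟩ := h0
    exact hv (by simpa [dl, wg_apply, vec, ny, nz] using congrFun e ⟨v.1, i₀ v.1, v.2⟩)
  refine ⟨h1, ext' fun W => ?_⟩
  obtain ⟨v, hv⟩ := exists_val_mxf (k := F) h0 W
  rw [val_up, dh_eq, neg_neg, val_sz h1, val_inf, val_zero, ← hv]
  exact nm_dl ny nz (V := W.dn ℂ) (fun j i => W.2 _) fun w =>
    (mem_Sec_mxf _ w W).trans_eq hv.symm

theorem adjoin_tau (h : GenPt T c y₀) (hP : IsPF β γ) :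
    IntermediateField.adjoin F (Set.range (vec (mpt γ y₀) - vec (mpt β y₁))) = ⊤ := by
  let S := IntermediateField.adjoin F (Set.range (vec (mpt γ y₀) - vec (mpt β y₁)))
  have h1 : ∀ j i, γ (y₀ j i) ∈ S := fun j i => by
    simpa [vec, mpt] using add_mem (IntermediateField.subset_adjoin F _ ⟨⟨j, i⟩, rfl⟩ : _ ∈ S)
      (S.algebraMap_mem (y₁ j i))
  have h2 : (⊤ : IntermediateField ℂ K) ≤ (S.restrictScalars ℂ).comap γ := by
    rw [← h.gen, IntermediateField.adjoin_le_iff]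
    rintro _ ⟨j, i, i', rfl⟩
    change γ _ ∈ S
    rw [map_div₀]
    exact div_mem (h1 j i) (h1 j i')
  have h3 : (⊤ : IntermediateField ℂ L) ≤ S.restrictScalars ℂ := by
    rw [← hP.adjoin_eq, IntermediateField.adjoin_le_iff]
    rintro _ (⟨x, rfl⟩ | ⟨x, rfl⟩)
    · exact S.algebraMap_mem x
    · exact h2 (IntermediateField.mem_top (x := x))
  exact eq_top_iff.2 fun x _ => h3 (IntermediateField.mem_top (x := x))

theorem clos_tau (h : GenPt T c y₀) (hP : IsPF β γ) (n₀ : ∀ j, y₀ j (i₀ j) = 1)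
    (n₁ : ∀ j, y₁ j (i₀ j) = 1) (hO : T.On y₁) (x : MvPolynomial (Vr io) F)
    (hx : MvPolynomial.aeval (vec (mpt γ y₀) - vec (mpt β y₁)) x = 0) :
    MvPolynomial.aeval (0 : Vr io → F) x = 0 := by
  have h1 : ∃ z : F ⊗[ℂ] MvPolynomial (Vr io) ℂ,
      productMap β (γ.comp (MvPolynomial.aeval (vec y₀))) z =
        MvPolynomial.aeval (vec (mpt γ y₀) - vec (mpt β y₁)) x ∧
      productMap (AlgHom.id ℂ F) (MvPolynomial.aeval (vec y₁)) z =
        MvPolynomial.aeval (0 : Vr io → F) x := by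
    clear hx
    induction x using MvPolynomial.induction_on with
    | C a => exact ⟨a ⊗ₜ 1, by simp, by simp⟩
    | add p q hp hq =>
      obtain ⟨z, h1, h2⟩ := hp
      obtain ⟨w, h3, h4⟩ := hq
      exact ⟨z + w, by rw [map_add, map_add, h1, h3], by rw [map_add, map_add, h2, h4]⟩
    | mul_X p v hp =>
      obtain ⟨z, h1, h2⟩ := hp
      exact ⟨z * (1 ⊗ₜ MvPolynomial.X v - vec y₁ v ⊗ₜ 1), by
        rw [map_mul, map_mul, h1]; simp [vec, mpt], by rw [map_mul, map_mul]; simp⟩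
  obtain ⟨z, h2, h3⟩ := h1
  exact h3 ▸ tensor_ker hP _ _ (genPt_ker h n₀ n₁ hO) z (h2.trans hx)

variable [Algebra.EssFiniteType ℂ F] [Algebra.EssFiniteType ℂ K] [Algebra.EssFiniteType ℂ L]
  [CharZero F] [Algebra.EssFiniteType F L]

theorem core_nor (hS : Smo T c) (h : GenPt T c y₀) (hP : IsPF β γ) (n₀ : ∀ j, y₀ j (i₀ j) = 1)
    (n₁ : ∀ j, y₁ j (i₀ j) = 1) (hO : T.On y₁) :
    (dim ℂ K = 0 → dl (mpt β y₁) (mpt γ y₀) = 0 ∧ Function.Surjective β) ∧
    ∀ m, dim ℂ K = m + 1 → dl (mpt β y₁) (mpt γ y₀) ≠ 0 ∧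
      bnum (replicate (m + 1) (up F (-dh (mpt β y₁) (mpt γ y₀)))) = -1 := by
  have h1 := adjoin_tau (y₁ := y₁) h hP
  have h2 := clos_tau h hP n₀ n₁ hO
  refine ⟨fun hd => ?_, fun m hd => ?_⟩
  · have : Algebra.IsAlgebraic ℂ K :=
      trdeg_eq_zero_iff.1 (by rw [trdeg_eq_dim, hd, Nat.cast_zero])
    have h3 : vec (mpt γ y₀) - vec (mpt β y₁) = 0 := funext fun v => by
      obtain ⟨a, ha⟩ := (IsAlgClosed.algebraMap_bijective_of_isIntegral (k := ℂ) (K := K)).2
        (vec y₀ v)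
      have h4 : (vec (mpt γ y₀) - vec (mpt β y₁)) v =
          algebraMap F L (algebraMap ℂ F a - vec y₁ v) := by
        rw [map_sub, ← IsScalarTower.algebraMap_apply, ← γ.commutes, ha]
        rfl
      have h5 := h2 (MvPolynomial.X v - MvPolynomial.C (algebraMap ℂ F a - vec y₁ v)) (by
        rw [map_sub, MvPolynomial.aeval_X, MvPolynomial.aeval_C, h4, sub_self])
      rw [map_sub, MvPolynomial.aeval_X, MvPolynomial.aeval_C, Pi.zero_apply, zero_sub,
        neg_eq_zero] at h5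
      rw [h4, show algebraMap ℂ F a - vec y₁ v = 0 from h5, map_zero, Pi.zero_apply]
    refine ⟨?_, fun x => ?_⟩
    · rw [dl, sub_eq_zero.1 h3]
      exact funext fun x => by simp [wg_apply, mul_comm]
    · have h4 : (⊤ : IntermediateField F L) ≤ ⊥ := by
        rw [← h1, h3, IntermediateField.adjoin_le_iff]
        rintro _ ⟨v, rfl⟩
        exact zero_mem _
      exact IntermediateField.mem_bot.1 (h4 (IntermediateField.mem_top (x := x)))
  · have h3 : dim F L = m + 1 := by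
      have h4 := Wd.dim_pf hP
      rw [Loc.dim_tower ℂ F L] at h4
      omega
    obtain ⟨h4, h5⟩ := up_dh (y := mpt γ y₀) (fun j => by simp [mpt, n₀]) n₁ (exists_ne h1 (by omega))
    refine ⟨h4, h5 ▸ mult_jac h1 h3 h2 (q := eqs T i₀ y₁) ?_ (rank_eqs hS n₁ hO (hd ▸ h.dm))⟩
    rintro (a | j)
    · refine (aeval_shf _ _ _).trans (Eq.trans ?_ ((on_map T γ).2 h.on a))
      simp [pv, vec, mapP, mpt]
    · simp [eqs, vec, mpt, n₀, n₁]

theorem core (hS : Smo T c) (h : GenPt T c y₀) (hP : IsPF β γ) (h₁ : NZ y₁) (hO : T.On y₁) :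
    (dim ℂ K = 0 → dl (mpt β y₁) (mpt γ y₀) = 0 ∧ Function.Surjective β) ∧
    ∀ m, dim ℂ K = m + 1 → dl (mpt β y₁) (mpt γ y₀) ≠ 0 ∧
      bnum (replicate (m + 1) (up F (-dh (mpt β y₁) (mpt γ y₀)))) = -1 := by
  choose i₀ hi using id h₁
  have h0 : ∀ j, y₀ j (i₀ j) ≠ 0 := fun j => genPt_ne h h₁ hO (hi j)
  have h1 := core_nor hS (genPt_scl h fun j => inv_ne_zero (h0 j)) hP
    (y₁ := scl (fun j => (y₁ j (i₀ j))⁻¹) y₁) (fun j => inv_mul_cancel₀ (h0 j))
    (fun j => inv_mul_cancel₀ (hi j)) (Node22.on_scl T hO _)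
  have e₁ : mpt β (scl (fun j => (y₁ j (i₀ j))⁻¹) y₁) =
      scl (fun j => β (y₁ j (i₀ j))⁻¹) (mpt β y₁) := funext fun j => funext fun i => map_mul _ _ _
  have e₀ : mpt γ (scl (fun j => (y₀ j (i₀ j))⁻¹) y₀) =
      scl (fun j => γ (y₀ j (i₀ j))⁻¹) (mpt γ y₀) := funext fun j => funext fun i => map_mul _ _ _
  have c₁ : ∀ j, β (y₁ j (i₀ j))⁻¹ ≠ 0 := fun j => (map_ne_zero _).2 (inv_ne_zero (hi j))
  have c₀ : ∀ j, γ (y₀ j (i₀ j))⁻¹ ≠ 0 := fun j => (map_ne_zero _).2 (inv_ne_zero (h0 j))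
  rwa [e₁, e₀, Ne, dl_scl_eq_zero c₁ c₀,
    dh_scl (y := mpt β y₁) (y' := mpt γ y₀) ((nz_map β).2 h₁) ((nz_map γ).2 h.nz) c₁ c₀] at h1

theorem cl_map (hB : B.Ax) (α : F →ₐ[ℂ] L) (s : List (BD ℂ F)) :
    (B.cl s).map (B.pb (LP.hom α) : B.H F →+* B.H L) = B.cl (s.map (pb α)) := by
  induction s with
  | nil => simp
  | cons b s ih =>
    rw [List.map_cons, Th.cl_cons, Th.cl_cons, Polynomial.map_mul, ih, Polynomial.map_sub,
      Polynomial.map_C, Polynomial.map_X, RingHom.coe_coe, hB.pb_c1_hom]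

theorem pt_tower (hB : B.Ax) (hS : Smo T c) (h : GenPt T c y₀) (hP : IsPF β γ) (h₁ : NZ y₁)
    (hO : T.On y₁) (Ψ : B.H L) (ψ : B.H F)
    (hΨ : ∀ (E : Type) [Field E] [Algebra ℂ E] [Algebra.EssFiniteType ℂ E] (p : LP L E),
      Meet p.V (mpt β y₁) (mpt γ y₀) → B.pb p Ψ = B.pb p (B.pb (LP.hom β) ψ)) :
    B.itg L (dgc B T (mpt β y₁) (mpt γ y₀) * Ψ) = B.itg F ψ := by
  obtain ⟨h1, h2⟩ := core hS h hP h₁ hO
  have z₁ : NZ (mpt β y₁) := (nz_map β).2 h₁
  have z₀ : NZ (mpt γ y₀) := (nz_map γ).2 h.nz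
  obtain ⟨s, h3, h4⟩ := hB.exists_cl (a := fun v : Vr io => ln y₁ v.1) (eul_le hO)
  have h5 : s.length = dim ℂ K := by
    have h6 := finrank_ker_jac hS h₁ hO
    have h7 : adim io + _ = _ := Node22.dimP_add h₁
    have h8 := h.dm
    rw [finrank_eul h₁] at h3
    omega
  have h6 : cT B T (mpt β y₁) = B.cl (s.map (pb β)) := by
    rw [← hB.cT_map hS β h₁ hO, cT, h4, cl_map hB]
  rcases hd : dim ℂ K with _ | m
  · obtain ⟨h7, h8⟩ := h1 hd
    have h9 := hΨ L _ (meet_of_par z₁ z₀ ((Node22.dl_eq_zero z₁ z₀).1 h7))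
    rw [hB.pb_id, hB.pb_id] at h9
    rw [dgc, wdg_eq, if_pos h7, h6, List.length_eq_zero_iff.1 (h5.trans hd), h9]
    simpa using hB.itg_equiv h8 ψ
  obtain ⟨h7, h8⟩ := h2 m hd
  have h9 : ∀ d : B.H L, (B.cl (s.map (pb β))).eval 0 - (B.cl (s.map (pb β))).eval d =
      d * (-(B.cl (s.map (pb β))).divX).eval d := fun d => by
    have h10 := congrArg (Polynomial.eval d) (Polynomial.X_mul_divX_add (B.cl (s.map (pb β))))
    rw [Polynomial.eval_add, Polynomial.eval_mul, Polynomial.eval_X, Polynomial.eval_C,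
      Polynomial.coeff_zero_eq_eval_zero] at h10
    rw [Polynomial.eval_neg]
    linear_combination h10
  have h10 : ∀ l : BD ℂ L, B.itg L ((B.cl (s.map (pb β))).eval (B.c1 l) * B.pb (LP.hom β) ψ) =
      bnum (replicate (m + 1) (up F (-l))) * B.itg F ψ := fun l => by
    rw [Tr89.eval_cl, Tr89.fib hB _ _ (by simp [h5, Wd.dim_pf hP, add_comm]), ← hd, ← h5]
    congr 3
    refine List.eq_replicate_iff.2 ⟨by simp, fun b hb => ?_⟩
    simp only [List.map_map, List.mem_map, Function.comp_apply] at hb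
    obtain ⟨a, -, rfl⟩ := hb
    rw [map_sub, up_pb β fun _ => rfl, zero_sub, map_neg]
  rw [dgc, wdg_eq, if_neg h7, h6, h9, mul_assoc,
    hB.mul_congr (y := _ * B.pb (LP.hom β) ψ) fun V hV h11 => ?_, ← mul_assoc, ← h9, sub_mul, map_sub, h10, h8, ← map_zero B.c1, h10, neg_zero, map_zero,
    List.replicate_succ, bnum_zero]
  · simp
  · have := Geo.essFT_Rf hV
    rw [map_mul, map_mul, hΨ _ (LP.at V) (meet_of_dh z₁ z₀ ((Geo.od_eq_zero hV).not.1 h11))]

end Tower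

/-- **the diagonal class at a generic point** -/
theorem pt_dgc [Algebra.EssFiniteType ℂ F] [Algebra.EssFiniteType ℂ K] [Algebra.EssFiniteType ℂ L]
    (hB : B.Ax) (hS : Smo T c) (h : GenPt T c y₀) {β : F →ₐ[ℂ] L} (hP : IsPF β γ) (h₁ : NZ y₁)
    (hO : T.On y₁) (Ψ : B.H L) (ψ : B.H F)
    (hΨ : ∀ (E : Type) [Field E] [Algebra ℂ E] [Algebra.EssFiniteType ℂ E] (p : LP L E),
      Meet p.V (mpt β y₁) (mpt γ y₀) → B.pb p Ψ = B.pb p (B.pb (LP.hom β) ψ)) :
    B.itg L (dgc B T (mpt β y₁) (mpt γ y₀) * Ψ) = B.itg F ψ := by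
  let _ := β.toRingHom.toAlgebra
  have : IsScalarTower ℂ F L := IsScalarTower.of_algebraMap_eq fun c => (β.commutes c).symm
  have : CharZero F := charZero_of_injective_algebraMap (algebraMap ℂ F).injective
  have : Algebra.EssFiniteType F L := Algebra.EssFiniteType.of_comp ℂ F L
  exact pt_tower hB hS h hP h₁ hO Ψ ψ hΨ

end Crest.Agent.X262.Hb
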