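import Crest.Agent.X262.Vb.Defs

/-!
# Row 262, road B, Hb (helper61), part 5: the class of the diagonal, the input from cohomology

`Dlt B y₀ u u' δ` : `δ L γ₁ γ₂` is the class of the diagonal of the variety with generic point `y₀`,
evaluated at the pair of generic points `(γ₁ y₀, γ₂ y₀)`; Kuenneth formula and support.
-/

set_option autoImplicit false

noncomputable section

namespace Crest.Agent.X262.Hb

open Crest.Agent.X277 Crest.Agent.X277.BD Crest.Agent.X277.Pst Crest.Agent.X277.BD.Cyc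
open Crest.Agent.X262.Geo (od)
open Crest.Agent.X262.Vb

variable {J : Type} [Fintype J] [DecidableEq J] {io : J → Type} [∀ j, Fintype (io j)]
  [∀ j, DecidableEq (io j)]

/-- the image of a point under a field embedding -/
abbrev mpt {K L : Type} [Field K] [Algebra ℂ K] [Field L] [Algebra ℂ L] (α : K →ₐ[ℂ] L)
    (y : Pnt io K) : Pnt io L := fun j i => α (y j i)

/-- the reductions of the two points at `V` agree -/
def Meet {L : Type} [Field L] [Algebra ℂ L] (V : RZ ℂ L) (y y' : Pnt io L) : Prop :=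
  ∃ c c' : J → L, Prim V (fun j i => c j * y j i) ∧ Prim V (fun j i => c' j * y' j i) ∧
    ∀ j i, V.v (c j * y j i - c' j * y' j i) < 1

/-- the class of the diagonal at pairs of independent generic points -/
structure Dlt (B : Th) {K : Type} [Field K] [Algebra ℂ K] (y₀ : Pnt io K) {ι : Type} [Fintype ι]
    (u u' : ι → B.H K)
    (δ : ∀ (L : Type) [Field L] [Algebra ℂ L], (K →ₐ[ℂ] L) → (K →ₐ[ℂ] L) → B.H L) : Prop where
  kun : ∀ (F₁ F₂ L : Type) [Field F₁] [Algebra ℂ F₁] [Algebra.EssFiniteType ℂ F₁] [Field F₂]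
    [Algebra ℂ F₂] [Algebra.EssFiniteType ℂ F₂] [Field L] [Algebra ℂ L]
    [Algebra.EssFiniteType ℂ L] (β₁ : F₁ →ₐ[ℂ] L) (β₂ : F₂ →ₐ[ℂ] L), Prd β₁ β₂ →
    ∀ (α₁ : K →ₐ[ℂ] F₁) (α₂ : K →ₐ[ℂ] F₂) (x₁ : B.H F₁) (x₂ : B.H F₂),
      B.itg L (B.pb (LP.hom β₁) x₁ * B.pb (LP.hom β₂) x₂ * δ L (β₁.comp α₁) (β₂.comp α₂)) =
        ∑ l, B.itg F₁ (x₁ * B.pb (LP.hom α₁) (u l)) * B.itg F₂ (x₂ * B.pb (LP.hom α₂) (u' l))
  sup : ∀ (F₁ F₂ L : Type) [Field F₁] [Algebra ℂ F₁] [Algebra.EssFiniteType ℂ F₁] [Field F₂]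
    [Algebra ℂ F₂] [Algebra.EssFiniteType ℂ F₂] [Field L] [Algebra ℂ L]
    [Algebra.EssFiniteType ℂ L] (β₁ : F₁ →ₐ[ℂ] L) (β₂ : F₂ →ₐ[ℂ] L), Prd β₁ β₂ →
    ∀ (α₁ : K →ₐ[ℂ] F₁) (α₂ : K →ₐ[ℂ] F₂) (x : B.H L),
      (∀ (E : Type) [Field E] [Algebra ℂ E] [Algebra.EssFiniteType ℂ E] (p : LP L E),
        Meet p.V (mpt (β₁.comp α₁) y₀) (mpt (β₂.comp α₂) y₀) → B.pb p x = 0) →
      B.itg L (x * δ L (β₁.comp α₁) (β₂.comp α₂)) = 0

end Crest.Agent.X262.Hb
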