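import Crest.Agent.X262.Hb.Pnt

/-!
# Row 262, road B, Hb (helper61), part 9: the Kuenneth decomposition of `dgc`

`diag_of` : `Vb.Diag` follows from the class of the diagonal at pairs of generic points (`Dlt`).
-/

set_option autoImplicit false
set_option linter.unusedSectionVars false

noncomputable section

namespace Crest.Agent.X262.Hb

open Crest.Agent.X277 Crest.Agent.X277.BD Crest.Agent.X277.Pst Crest.Agent.X277.BD.Cyc
open Crest.Agent.X262.Vb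
open Crest.Agent.R274.Prod1_134 (IsPF PF pα pβ isPF)
open Algebra.TensorProduct (productMap)
open scoped TensorProduct

variable {F K L M : Type} [Field F] [Algebra ℂ F] [Field K] [Algebra ℂ K] [Field L] [Algebra ℂ L]
  [Field M] [Algebra ℂ M]

theorem prd_of_isPF [Algebra.EssFiniteType ℂ F] [Algebra.EssFiniteType ℂ K] {a : F →ₐ[ℂ] L}
    {b : K →ₐ[ℂ] L} (h : IsPF a b) : Prd a b :=
  ⟨Wd.dim_pf h, top_unique (h.adjoin_eq ▸ IntermediateField.adjoin_le_iff.2 (by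
    rintro _ (⟨x, rfl⟩ | ⟨x, rfl⟩)
    · exact (le_sup_left : a.fieldRange ≤ _) ⟨x, rfl⟩
    · exact (le_sup_right : b.fieldRange ≤ _) ⟨x, rfl⟩))⟩

theorem inj_comp {a : L →ₐ[ℂ] M} {b : K →ₐ[ℂ] M} (h : Function.Injective (productMap a b))
    (α : F →ₐ[ℂ] L) : Function.Injective (productMap (a.comp α) b) := by
  have h1 : Function.Injective (Algebra.TensorProduct.map α (AlgHom.id ℂ K)) :=
    TensorProduct.map_injective_of_flat_flat α.toLinearMap (AlgHom.id ℂ K).toLinearMap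
      α.injective Function.injective_id
  have h2 : productMap (a.comp α) b =
      (productMap a b).comp (Algebra.TensorProduct.map α (AlgHom.id ℂ K)) := by
    ext x <;> simp
  rw [h2]
  exact h.comp h1

theorem comp_inj {a : F →ₐ[ℂ] L} {b : K →ₐ[ℂ] L} (h : Function.Injective (productMap a b))
    (α : L →ₐ[ℂ] M) : Function.Injective (productMap (α.comp a) (α.comp b)) := by
  have h2 : productMap (α.comp a) (α.comp b) = α.comp (productMap a b) := by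
    ext x <;> simp
  rw [h2]
  exact α.injective.comp h

theorem exists_lift {a : F →ₐ[ℂ] M} {b : K →ₐ[ℂ] M} (h : Function.Injective (productMap a b)) :
    ∃ φ : PF ℂ F K →ₐ[ℂ] M, φ.comp (pα ℂ F K) = a ∧ φ.comp (pβ ℂ F K) = b := by
  refine ⟨IsFractionRing.liftAlgHom h, AlgHom.ext fun x => ?_, AlgHom.ext fun x => ?_⟩ <;>
    simp [pα, pβ]

variable (F K) in
theorem exists_pf [Algebra.EssFiniteType ℂ F] [Algebra.EssFiniteType ℂ K] :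
    ∃ (L : Type) (_ : Field L) (_ : Algebra ℂ L) (_ : Algebra.EssFiniteType ℂ L)
      (α : F →ₐ[ℂ] L) (β : K →ₐ[ℂ] L), IsPF α β ∧ ∀ {M : Type} [Field M] [Algebra ℂ M]
        {a : F →ₐ[ℂ] M} {b : K →ₐ[ℂ] M}, Function.Injective (productMap a b) →
        ∃ φ : L →ₐ[ℂ] M, φ.comp α = a ∧ φ.comp β = b :=
  ⟨PF ℂ F K, _, _, Wd.essFT_pf (isPF ℂ F K), _, _, isPF ℂ F K, exists_lift⟩

theorem map_mem_of_prd {a : F →ₐ[ℂ] L} {b : K →ₐ[ℂ] L} (h : a.fieldRange ⊔ b.fieldRange = ⊤)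
    (α : L →ₐ[ℂ] M) {S : IntermediateField ℂ M} (ha : ∀ x, α (a x) ∈ S) (hb : ∀ x, α (b x) ∈ S)
    (x : L) : α x ∈ S := by
  have h1 : a.fieldRange ⊔ b.fieldRange ≤ S.comap α :=
    sup_le (by rintro _ ⟨x, rfl⟩; exact ha x) (by rintro _ ⟨x, rfl⟩; exact hb x)
  exact h1 (h ▸ IntermediateField.mem_top)

variable {J : Type} [Fintype J] [DecidableEq J] {io : J → Type} [∀ j, Fintype (io j)]
  [∀ j, DecidableEq (io j)] {A : Type} [Fintype A] {T : Tgt io A} {B : Th} {c : ℕ} {y₀ : Pnt io K}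
  [Algebra.EssFiniteType ℂ F] [Algebra.EssFiniteType ℂ K] [Algebra.EssFiniteType ℂ L]

theorem pt_cls (hB : B.Ax) (hS : Smo T c) (h : GenPt T c y₀) {β : F →ₐ[ℂ] L} {γ : K →ₐ[ℂ] L}
    (hP : IsPF β γ) {y₁ : Pnt io F} (h₁ : NZ y₁) (hO : T.On y₁) {e : Fam B io} (he : Cls B T e)
    (x : B.H F) : B.itg L (dgc B T (mpt β y₁) (mpt γ y₀) * B.pb (LP.hom β) x *
      B.pb (LP.hom γ) (e K y₀)) = B.itg F (x * e F y₁) := by
  rw [mul_assoc]
  refine pt_dgc hB hS h hP h₁ hO _ _ fun E _ _ _ p hp => ?_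
  rw [map_mul, map_mul, map_mul, he.map γ h.nz h.on, he.map β h₁ hO]
  exact congrArg _ (he.meet ((nz_map β).2 h₁) ((nz_map γ).2 h.nz) ((on_map T β).2 hO)
    ((on_map T γ).2 h.on) hp).symm

/-- **Kuenneth decomposition of the diagonal class** -/
theorem diag_of (hB : B.Ax) (hS : Smo T c) (h : GenPt T c y₀) {ι : Type} [Fintype ι]
    {e e' : ι → Fam B io} (he : ∀ l, Cls B T (e l)) (he' : ∀ l, Cls B T (e' l))
    {δ : ∀ (L : Type) [Field L] [Algebra ℂ L], (K →ₐ[ℂ] L) → (K →ₐ[ℂ] L) → B.H L}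
    (hD : Dlt B y₀ (fun l => e l K y₀) (fun l => e' l K y₀) δ)
    (h1 : ∑ l, B.itg K (e' l K y₀) • e l K y₀ = 1) : Diag B T e e' := by
  intro K₁ K₂ L _ _ _ _ _ _ _ _ _ α₁ α₂ hP y₁ y₂ n₁ o₁ n₂ o₂ x₁ x₂
  obtain ⟨L₁, _, _, _, a, g, p₁, -⟩ := exists_pf L K
  obtain ⟨M, _, _, _, b, g', p₂, -⟩ := exists_pf L₁ K
  obtain ⟨F₁, _, _, _, a₁, g₁, q₁, u₁⟩ := exists_pf K₁ K
  obtain ⟨F₂, _, _, _, a₂, g₂, q₂, u₂⟩ := exists_pf K₂ K
  obtain ⟨β₁, e₁, f₁⟩ := u₁ (comp_inj (inj_comp p₁.inj α₁) b)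
  obtain ⟨β₂, e₂, f₂⟩ := u₂ (inj_comp p₂.inj (a.comp α₂))
  clear u₁ u₂
  have hQ : Prd β₁ β₂ := by
    refine ⟨by rw [Wd.dim_pf p₂, Wd.dim_pf p₁, Wd.dim_pf q₁, Wd.dim_pf q₂, hP.1]; ring,
      eq_top_iff.2 fun x _ => ?_⟩
    have m₁ : ∀ x, β₁ x ∈ β₁.fieldRange ⊔ β₂.fieldRange := fun x =>
      (le_sup_left : β₁.fieldRange ≤ _) ⟨x, rfl⟩
    have m₂ : ∀ x, β₂ x ∈ β₁.fieldRange ⊔ β₂.fieldRange := fun x =>
      (le_sup_right : β₂.fieldRange ≤ _) ⟨x, rfl⟩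
    refine map_mem_of_prd (prd_of_isPF p₂).2 (AlgHom.id ℂ _)
      (map_mem_of_prd (prd_of_isPF p₁).2 b (map_mem_of_prd hP.2 (b.comp a) (fun x => ?_)
        fun x => ?_) fun x => ?_) (fun x => ?_) x
    · exact (DFunLike.congr_fun e₁ x ▸ m₁ (a₁ x) :)
    · exact (DFunLike.congr_fun e₂ x ▸ m₂ (a₂ x) :)
    · exact (DFunLike.congr_fun f₁ x ▸ m₁ (g₁ x) :)
    · exact (DFunLike.congr_fun f₂ x ▸ m₂ (g₂ x) :)
  have k₁ := hD.kun _ _ _ β₁ β₂ hQ g₁ g₂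
    (dgc B T (mpt a₁ y₁) (mpt g₁ y₀) * B.pb (LP.hom a₁) x₁)
    (dgc B T (mpt a₂ y₂) (mpt g₂ y₀) * B.pb (LP.hom a₂) x₂)
  simp only [pt_cls hB hS h q₁ n₁ o₁ (he _), pt_cls hB hS h q₂ n₂ o₂ (he' _)] at k₁
  have d : ∀ {F L M : Type} [Field F] [Algebra ℂ F] [Field L] [Algebra ℂ L] [Field M] [Algebra ℂ M]
      [Algebra.EssFiniteType ℂ L] [Algebra.EssFiniteType ℂ M] (β : F →ₐ[ℂ] L) (γ : K →ₐ[ℂ] L)
      (φ : L →ₐ[ℂ] M) {y : Pnt io F}, NZ y → T.On y →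
      B.pb (LP.hom φ) (dgc B T (mpt β y) (mpt γ y₀)) =
        dgc B T (mpt (φ.comp β) y) (mpt (φ.comp γ) y₀) := fun β γ φ y h1 h2 =>
    hB.dgc_map hS φ ((nz_map β).2 h1) ((nz_map γ).2 h.nz) ((on_map T β).2 h2)
      ((on_map T γ).2 h.on)
  rw [map_mul (B.pb _), map_mul (B.pb _), d _ _ _ n₁ o₁, d _ _ _ n₂ o₂, hB.pb_hom_hom,
    hB.pb_hom_hom, e₁, e₂, f₁, f₂] at k₁
  have k₂ := hD.kun _ _ _ b g' (prd_of_isPF p₂) g (AlgHom.id ℂ K)
    (dgc B T (mpt (a.comp α₁) y₁) (mpt g y₀) * B.pb (LP.hom (a.comp α₁)) x₁ *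
      (dgc B T (mpt (a.comp α₂) y₂) (mpt g y₀) * B.pb (LP.hom (a.comp α₂)) x₂)) 1
  have k₃ : ∀ z : B.H L₁, ∑ l, B.itg _ (z * B.pb (LP.hom g) (e l K y₀)) *
      B.itg K (1 * B.pb (LP.hom (AlgHom.id ℂ K)) (e' l K y₀)) = B.itg _ z := fun z => by
    conv_rhs =>
      rw [← mul_one z, ← map_one (B.pb (LP.hom g)), ← h1, map_sum, Finset.mul_sum, map_sum]
    exact Finset.sum_congr rfl fun l _ => by
      rw [one_mul, hB.pb_id, map_smul, mul_smul_comm, map_smul, smul_eq_mul, mul_comm]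
  rw [k₃, map_one, mul_one, map_mul (B.pb _), map_mul (B.pb _), map_mul (B.pb _), d _ _ _ n₁ o₁,
    d _ _ _ n₂ o₂, hB.pb_hom_hom, hB.pb_hom_hom, AlgHom.comp_id] at k₂
  have k₄ := hD.sup _ _ _ b g' (prd_of_isPF p₂) g (AlgHom.id ℂ K)
    (dgc B T (mpt (b.comp (a.comp α₁)) y₁) (mpt (b.comp g) y₀) *
      B.pb (LP.hom (b.comp (a.comp α₁))) x₁ * (B.pb (LP.hom (b.comp (a.comp α₂))) x₂ *
      (dgc B T (mpt (b.comp (a.comp α₂)) y₂) (mpt (b.comp g) y₀) -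
        dgc B T (mpt (b.comp (a.comp α₂)) y₂) (mpt g' y₀)))) fun E _ _ _ p hp => by
      rw [map_mul, map_mul (B.pb p) _ (_ - _), map_sub]
      exact mul_eq_zero_of_right _ (mul_eq_zero_of_right _ (sub_eq_zero.2 (hB.dgc_meet hS
        ((nz_map _).2 n₂) ((nz_map _).2 h.nz) ((nz_map g').2 h.nz) ((on_map T _).2 o₂)
        ((on_map T _).2 h.on) ((on_map T g').2 h.on) hp)))
  have k₅ := pt_dgc hB hS h p₁ (y₁ := mpt α₂ y₂) ((nz_map α₂).2 n₂) ((on_map T α₂).2 o₂)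
    (B.pb (LP.hom (a.comp α₁)) x₁ * B.pb (LP.hom (a.comp α₂)) x₂ *
      dgc B T (mpt (a.comp α₁) y₁) (mpt g y₀))
    (B.pb (LP.hom α₁) x₁ * B.pb (LP.hom α₂) x₂ * dgc B T (mpt α₁ y₁) (mpt α₂ y₂))
    fun E _ _ _ p hp => by
      rw [map_mul (B.pb (LP.hom a)), map_mul (B.pb (LP.hom a)), hB.pb_hom_hom, hB.pb_hom_hom,
        hB.dgc_map hS a (y := mpt α₁ y₁) (y' := mpt α₂ y₂) ((nz_map _).2 n₁) ((nz_map _).2 n₂)
          ((on_map T _).2 o₁) ((on_map T _).2 o₂), map_mul, map_mul (B.pb p) _ (dgc _ _ _ _)]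
      exact congrArg _ (hB.dgc_meet hS ((nz_map (a.comp α₁)).2 n₁) ((nz_map (a.comp α₂)).2 n₂)
        ((nz_map g).2 h.nz) ((on_map T (a.comp α₁)).2 o₁) ((on_map T (a.comp α₂)).2 o₂)
        ((on_map T g).2 h.on) hp).symm
  rw [show mpt a (mpt α₂ y₂) = mpt (a.comp α₂) y₂ from rfl] at k₅
  rw [AlgHom.comp_id, mul_sub, mul_sub, sub_mul, map_sub, sub_eq_zero] at k₄
  refine k₅.symm.trans (Eq.trans ?_ (k₂.symm.trans (Eq.trans ?_ (k₄.trans (Eq.trans ?_ k₁)))))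
  all_goals
    congr 1
    ring

theorem sum_dual {H : Type} [CommRing H] [Algebra ℂ H] {φ : H →ₗ[ℂ] ℂ}
    (pd : ∀ a, (∀ b, φ (a * b) = 0) → a = 0) {ι : Type} [Fintype ι] {u u' : ι → H}
    (h : ∀ a b, φ (a * b) = ∑ l, φ (a * u l) * φ (b * u' l)) : ∑ l, φ (u' l) • u l = 1 := by
  refine sub_eq_zero.1 (pd _ fun b => ?_)
  rw [sub_mul, map_sub, mul_comm 1, h b 1, Finset.sum_mul, map_sum, sub_eq_zero]
  exact Finset.sum_congr rfl fun l _ => by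
    rw [smul_mul_assoc, map_smul, smul_eq_mul, one_mul, mul_comm, mul_comm b]

/-- the form for an evaluation of the classes of a ring with Poincare duality -/
theorem diag_of_ev (hB : B.Ax) (hS : Smo T c) (h : GenPt T c y₀) {H : Type} [CommRing H]
    [Algebra ℂ H] (ev : ∀ (E : Type) [Field E] [Algebra ℂ E], Pnt io E → (H →ₐ[ℂ] B.H E))
    (cls : ∀ a, Cls B T fun E _ _ y => ev E y a) {φ : H →ₗ[ℂ] ℂ}
    (itg : ∀ a, B.itg K (ev K y₀ a) = φ a) (pd : ∀ a, (∀ b, φ (a * b) = 0) → a = 0)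
    {ι : Type} [Fintype ι] {u u' : ι → H}
    (hu : ∀ a b, φ (a * b) = ∑ l, φ (a * u l) * φ (b * u' l))
    {δ : ∀ (L : Type) [Field L] [Algebra ℂ L], (K →ₐ[ℂ] L) → (K →ₐ[ℂ] L) → B.H L}
    (hD : Dlt B y₀ (fun l => ev K y₀ (u l)) (fun l => ev K y₀ (u' l)) δ) :
    Diag B T (fun l E _ _ y => ev E y (u l)) fun l E _ _ y => ev E y (u' l) :=
  diag_of hB hS h (fun _ => cls _) (fun _ => cls _) hD (by
    simp only [itg, ← map_smul, ← map_sum, sum_dual pd hu, map_one])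

end Crest.Agent.X262.Hb
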